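import Mathlib

/-! Mod two cochains on lists and multisets, the prism operator, and fine odd cycles. -/

namespace Vale.Agent.P052

abbrev F := ZMod 2

theorem F_add_self (a : F) : a + a = 0 := by
  have : ∀ b : F, b + b = 0 := by decide
  exact this a

theorem F_cases (a : F) : a = 0 ∨ a = 1 := by
  have : ∀ b : F, b = 0 ∨ b = 1 := by decide
  exact this a

/-- coboundary of a cochain on lists -/
def dL {α : Type*} : (List α → F) → List α → F
  | _, [] => 0
  | G, v :: l => G l + dL (fun l' => G (v :: l')) l

theorem dL_add {α : Type*} (G H : List α → F) (l : List α) :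
    dL (fun x => G x + H x) l = dL G l + dL H l := by
  induction l generalizing G H with
  | nil => simp [dL]
  | cons v l ih => simp only [dL]; rw [ih]; ring

theorem dL_zero {α : Type*} (l : List α) : dL (fun _ => (0 : F)) l = 0 := by
  induction l with
  | nil => simp [dL]
  | cons v l ih => simp only [dL]; rw [ih]; ring

theorem dL_map {α β : Type*} (f : α → β) (G : List β → F) (l : List α) :
    dL (fun x => G (x.map f)) l = dL G (l.map f) := by
  induction l generalizing G with
  | nil => simp [dL]
  | cons v l ih =>
    simp only [dL, List.map_cons]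
    rw [← ih (fun l' => G (f v :: l'))]

theorem dL_dL {α : Type*} (G : List α → F) (l : List α) : dL (dL G) l = 0 := by
  induction l generalizing G with
  | nil => simp [dL]
  | cons v l ih =>
    simp only [dL]
    rw [dL_add, ih, add_zero, F_add_self]

theorem dL_sum {α ι : Type*} (s : Finset ι) (G : ι → List α → F) (l : List α) :
    dL (fun x => ∑ i ∈ s, G i x) l = ∑ i ∈ s, dL (G i) l := by
  classical
  induction s using Finset.induction_on with
  | empty => simp [dL_zero]
  | insert a s ha ih => simp only [Finset.sum_insert ha]; rw [dL_add, ih]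

/-- the prism operator between two vertex maps -/
def prism {α β : Type*} (f g : α → β) : (List β → F) → List α → F
  | _, [] => 0
  | G, v :: l => G (f v :: g v :: l.map g) + prism f g (fun l' => G (f v :: l')) l

theorem prism_add {α β : Type*} (f g : α → β) (G H : List β → F) (l : List α) :
    prism f g (fun x => G x + H x) l = prism f g G l + prism f g H l := by
  induction l generalizing G H with
  | nil => simp [prism]
  | cons v l ih => simp only [prism]; rw [ih]; ring

theorem prism_id {α β : Type*} (f g : α → β) (G : List β → F) (l : List α) :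
    dL (prism f g G) l + prism f g (dL G) l = G (l.map f) + G (l.map g) := by
  induction l generalizing G with
  | nil => simp [prism, dL, F_add_self]
  | cons v l ih =>
    simp only [prism, dL, List.map_cons]
    rw [dL_add, prism_add, dL_map g (fun x => G (f v :: g v :: x))]
    have h := ih (fun l' => G (f v :: l'))
    have h2 := F_add_self (prism f g G l)
    have h3 := F_add_self (dL (fun x => G (f v :: g v :: x)) (l.map g))
    have h4 := F_add_self (G (f v :: l.map g))
    linear_combination h + h2 + h3 + h4

theorem prism_eq_zero {α β : Type*} (f g : α → β) (G : List β → F) (l : List α)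
    (h : ∀ l' : List β, l'.length = l.length + 1 →
      (∀ y ∈ l', ∃ x ∈ l, y = f x ∨ y = g x) → G l' = 0) : prism f g G l = 0 := by
  induction l generalizing G with
  | nil => simp [prism]
  | cons v l ih =>
    simp only [prism]
    rw [h, ih, add_zero]
    · intro l' hl hm
      apply h
      · simp [hl]
      · intro y hy
        rcases List.mem_cons.1 hy with rfl | hy
        · exact ⟨v, by simp, Or.inl rfl⟩
        · obtain ⟨x, hx, hxy⟩ := hm y hy
          exact ⟨x, by simp [hx], hxy⟩
    · simp
    · intro y hy
      rcases List.mem_cons.1 hy with rfl | hy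
      · exact ⟨v, by simp, Or.inl rfl⟩
      rcases List.mem_cons.1 hy with rfl | hy
      · exact ⟨v, by simp, Or.inr rfl⟩
      · obtain ⟨x, hx, rfl⟩ := List.mem_map.1 hy
        exact ⟨x, by simp [hx], Or.inr rfl⟩

/-- small lists on the l1 sphere spanned by the first `k+1` coordinates -/
def GoodL (k : ℕ) (ε : ℝ) (l : List (ℕ → ℝ)) : Prop :=
  l.length = k + 1 ∧ (∀ x ∈ l, ∑ i ∈ Finset.range (k + 1), |x i| = 1 ∧ ∀ i, k < i → x i = 0) ∧
    ∀ x ∈ l, ∀ y ∈ l, ∀ i, |x i - y i| ≤ ε

theorem GoodL.neg {k : ℕ} {ε : ℝ} {l : List (ℕ → ℝ)} (h : GoodL k ε l) :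
    GoodL k ε (l.map Neg.neg) := by
  obtain ⟨h1, h2, h3⟩ := h
  refine ⟨by simpa using h1, ?_, ?_⟩
  · intro x hx
    obtain ⟨y, hy, rfl⟩ := List.mem_map.1 hx
    refine ⟨by simpa using (h2 y hy).1, fun i hi => by simp [(h2 y hy).2 i hi]⟩
  · intro x hx y hy i
    obtain ⟨x', hx', rfl⟩ := List.mem_map.1 hx
    obtain ⟨y', hy', rfl⟩ := List.mem_map.1 hy
    have := h3 x' hx' y' hy' i
    simp only [Pi.neg_apply]
    rw [show -x' i - -y' i = -(x' i - y' i) by ring, abs_neg]
    exact this

theorem GoodL.mono {k : ℕ} {ε ε' : ℝ} {l : List (ℕ → ℝ)} (h : GoodL k ε l) (he : ε ≤ ε') :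
    GoodL k ε' l :=
  ⟨h.1, h.2.1, fun x hx y hy i => (h.2.2 x hx y hy i).trans he⟩

/-- straight line homotopy to the next unit vector -/
noncomputable def hom (k : ℕ) (t : ℝ) (x : ℕ → ℝ) : ℕ → ℝ :=
  fun i => (1 - t) * x i + t * (if i = k + 1 then 1 else 0)

theorem abs_le_one_of_sum {k : ℕ} {x : ℕ → ℝ} (h1 : ∑ i ∈ Finset.range (k + 1), |x i| = 1)
    (h2 : ∀ i, k < i → x i = 0) (i : ℕ) : |x i| ≤ 1 := by
  by_cases hi : k < i
  · simp [h2 i hi]
  · rw [← h1]
    exact Finset.single_le_sum (f := fun i => |x i|) (fun _ _ => abs_nonneg _)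
      (Finset.mem_range.2 (by omega))

theorem hom_sphere {k : ℕ} {t : ℝ} (ht0 : 0 ≤ t) (ht1 : t ≤ 1) {x : ℕ → ℝ}
    (h1 : ∑ i ∈ Finset.range (k + 1), |x i| = 1) (h2 : ∀ i, k < i → x i = 0) :
    ∑ i ∈ Finset.range (k + 1 + 1), |hom k t x i| = 1 ∧ ∀ i, k + 1 < i → hom k t x i = 0 := by
  constructor
  · rw [Finset.sum_range_succ]
    have : ∑ i ∈ Finset.range (k + 1), |hom k t x i| =
        ∑ i ∈ Finset.range (k + 1), (1 - t) * |x i| := by
      apply Finset.sum_congr rfl
      intro i hi
      have : i ≠ k + 1 := by have := Finset.mem_range.1 hi; omega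
      simp only [hom, if_neg this, mul_zero, add_zero, abs_mul]
      rw [abs_of_nonneg (by linarith : 0 ≤ 1 - t)]
    rw [this, ← Finset.mul_sum, h1]
    simp only [hom, h2 (k + 1) (by omega), if_true, mul_zero, zero_add, mul_one]
    rw [abs_of_nonneg ht0]; ring
  · intro i hi
    have : i ≠ k + 1 := by omega
    simp [hom, h2 i (by omega), this]

theorem hom_close {k : ℕ} {s t ε η : ℝ} (ht0 : 0 ≤ t) (ht1 : t ≤ 1) (hst : |t - s| ≤ η)
    {x y : ℕ → ℝ} (hy : ∀ i, |y i| ≤ 1) (hxy : ∀ i, |x i - y i| ≤ ε) (i : ℕ) :
    |hom k t x i - hom k s y i| ≤ ε + 2 * η := by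
  have e : hom k t x i - hom k s y i = (1 - t) * (x i - y i) + (t - s) * (-(y i)) +
      (t - s) * (if i = k + 1 then 1 else 0) := by
    simp only [hom]; ring
  have hη : 0 ≤ η := (abs_nonneg _).trans hst
  have hε : 0 ≤ ε := (abs_nonneg _).trans (hxy i)
  have a1 : |(1 - t) * (x i - y i)| ≤ ε := by
    rw [abs_mul, abs_of_nonneg (by linarith : 0 ≤ 1 - t)]
    nlinarith [hxy i, abs_nonneg (x i - y i)]
  have a2 : |(t - s) * (-(y i))| ≤ η := by
    rw [abs_mul, abs_neg]
    nlinarith [hy i, abs_nonneg (y i), abs_nonneg (t - s)]
  have a3 : |(t - s) * (if i = k + 1 then (1 : ℝ) else 0)| ≤ η := by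
    split_ifs
    · simpa using hst
    · simpa using hη
  rw [e]
  calc _ ≤ |(1 - t) * (x i - y i) + (t - s) * (-(y i))| +
        |(t - s) * (if i = k + 1 then (1 : ℝ) else 0)| := abs_add_le _ _
    _ ≤ (|(1 - t) * (x i - y i)| + |(t - s) * (-(y i))|) +
        |(t - s) * (if i = k + 1 then (1 : ℝ) else 0)| := by
          gcongr; exact abs_add_le _ _
    _ ≤ ε + 2 * η := by linarith

theorem exists_oddL (m : ℕ) : ∀ ε : ℝ, 0 < ε →
    ∃ I : ℕ → (List (ℕ → ℝ) → F) →+ F, I 0 (fun _ => 1) = 1 ∧
      (∀ k < m, ∀ G, I (k + 1) (dL G) = I k (fun l => G l + G (l.map Neg.neg))) ∧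
      ∀ k ≤ m, ∀ G, (∀ l, GoodL k ε l → G l = 0) → I k G = 0 := by
  induction m with
  | zero =>
    intro ε hε
    let e0 : ℕ → ℝ := fun i => if i = 0 then 1 else 0
    refine ⟨fun _ => ⟨⟨fun G => G [e0], rfl⟩, fun _ _ => rfl⟩, rfl, by simp, ?_⟩
    intro k hk G hG
    obtain rfl : k = 0 := by omega
    apply hG
    refine ⟨rfl, ?_, ?_⟩
    · intro x hx
      obtain rfl : x = e0 := by simpa using hx
      refine ⟨by simp [e0], fun i hi => by simp [e0]; omega⟩
    · intro x hx y hy i
      obtain rfl : x = e0 := by simpa using hx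
      obtain rfl : y = e0 := by simpa using hy
      simp [hε.le]
  | succ m ih =>
    intro ε hε
    obtain ⟨I, h0, hb, hs⟩ := ih (ε / 2) (by linarith)
    obtain ⟨N, hN⟩ := exists_nat_gt (4 / ε)
    have hNpos : (0 : ℝ) < N := lt_trans (by positivity) hN
    have hNε : 1 / (N : ℝ) ≤ ε / 4 := by
      rw [div_le_iff₀ hNpos]
      rw [div_lt_iff₀ hε] at hN
      nlinarith
    let J : (List (ℕ → ℝ) → F) → F := fun G => I m (fun l => G l + G (l.map Neg.neg))
    have Jadd : ∀ G H : List (ℕ → ℝ) → F, J (fun l => G l + H l) = J G + J H := by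
      intro G H
      simp only [J]
      rw [← map_add]
      congr 1
      funext l
      simp only [Pi.add_apply]; ring
    have Jd : ∀ G, J (dL G) = 0 := by
      intro G
      rcases Nat.eq_zero_or_pos m with rfl | hm
      · apply hs 0 le_rfl
        intro l hl
        obtain ⟨x, rfl⟩ := List.length_eq_one_iff.1 hl.1
        simp [dL, F_add_self]
      · obtain ⟨k, rfl⟩ : ∃ k, m = k + 1 := ⟨m - 1, by omega⟩
        simp only [J]
        have : (fun l => dL G l + dL G (l.map Neg.neg)) =
            dL (fun l => G l + G (l.map Neg.neg)) := by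
          funext l
          rw [dL_add, dL_map]
        rw [this, hb k (by omega)]
        have : (fun l : List (ℕ → ℝ) => G l + G (l.map Neg.neg) +
            (G (l.map Neg.neg) + G ((l.map Neg.neg).map Neg.neg))) = 0 := by
          funext l
          have e : (l.map Neg.neg).map Neg.neg = l := by simp
          rw [e]
          have h1 := F_add_self (G l)
          have h2 := F_add_self (G (l.map Neg.neg))
          simp only [Pi.zero_apply]
          linear_combination h1 + h2
        rw [this, map_zero]
    let P : (List (ℕ → ℝ) → F) → List (ℕ → ℝ) → F := fun G l =>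
      ∑ j ∈ Finset.range N, prism (hom m (j / N)) (hom m ((j + 1 : ℕ) / N)) G l
    have Padd : ∀ G H : List (ℕ → ℝ) → F, P (G + H) = fun l => P G l + P H l := by
      intro G H
      funext l
      simp only [P]
      rw [← Finset.sum_add_distrib]
      apply Finset.sum_congr rfl
      intro j _
      exact prism_add _ _ G H l
    have Pid : ∀ G l, P (dL G) l = dL (P G) l + (G l + G (l.map (hom m 1))) := by
      intro G l
      have tel : ∀ n : ℕ, ∑ j ∈ Finset.range n, (G (l.map (hom m (j / N))) +
          G (l.map (hom m ((j + 1 : ℕ) / N)))) = G l + G (l.map (hom m (n / N))) := by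
        intro n
        induction n with
        | zero =>
          have : hom m 0 = id := by funext x i; simp [hom]
          simp [this, F_add_self]
        | succ n ihn =>
          rw [Finset.sum_range_succ, ihn]
          have := F_add_self (G (l.map (hom m (n / N))))
          linear_combination this
      have := tel N
      rw [div_self hNpos.ne'] at this
      rw [← this]
      simp only [P]
      rw [dL_sum, ← Finset.sum_add_distrib]
      apply Finset.sum_congr rfl
      intro j _
      rw [← prism_id]
      have := F_add_self (dL (prism (hom m (j / N)) (hom m ((j + 1 : ℕ) / N)) G) l)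
      linear_combination -this
    let new : (List (ℕ → ℝ) → F) →+ F := AddMonoidHom.mk' (fun G => J (P G)) (by
      intro G H
      simp only [Padd, Jadd])
    refine ⟨fun k => if k = m + 1 then new else I k, by simpa using h0, ?_, ?_⟩
    · intro k hk G
      by_cases hkm : k = m
      · subst hkm
        simp only [if_true, show k ≠ k + 1 by omega, if_false]
        show J (P (dL G)) = J G
        have : P (dL G) = fun l => dL (P G) l + (G l + G (l.map (hom k 1))) := by
          funext l; exact Pid G l
        rw [this, Jadd, Jadd, Jd, zero_add]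
        have : J (fun l => G (l.map (hom k 1))) = 0 := by
          simp only [J]
          have : (fun l : List (ℕ → ℝ) => G (l.map (hom k 1)) +
              G ((l.map Neg.neg).map (hom k 1))) = 0 := by
            funext l
            have e : (l.map Neg.neg).map (hom k 1) = l.map (hom k 1) := by
              rw [List.map_map]
              congr 1
              funext x i
              simp [hom]
            rw [e]
            exact F_add_self _
          rw [this, map_zero]
        rw [this, add_zero]
      · have h1 : k + 1 ≠ m + 1 := by omega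
        have h2 : k ≠ m + 1 := by omega
        simp only [h1, h2, if_false]
        exact hb k (by omega) G
    · intro k hk G hG
      by_cases hkm : k = m + 1
      · subst hkm
        simp only [if_true]
        show J (P G) = 0
        have key : ∀ l, GoodL m (ε / 2) l → P G l = 0 := by
          intro l hl
          apply Finset.sum_eq_zero
          intro j hj
          have hj' : j + 1 ≤ N := Finset.mem_range.1 hj
          have hjr : ((j + 1 : ℕ) : ℝ) ≤ N := by exact_mod_cast hj'
          have a0 : (0 : ℝ) ≤ j / N := by positivity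
          have a1 : (j : ℝ) / N ≤ 1 := by
            rw [div_le_one hNpos]; push_cast at hjr; linarith
          have b0 : (0 : ℝ) ≤ ((j + 1 : ℕ) : ℝ) / N := by positivity
          have b1 : ((j + 1 : ℕ) : ℝ) / N ≤ 1 := by rw [div_le_one hNpos]; exact hjr
          have d : ((j + 1 : ℕ) : ℝ) / N - j / N = 1 / N := by push_cast; ring
          have hN0 : (0 : ℝ) ≤ 1 / N := by positivity
          apply prism_eq_zero
          intro l' hlen hm
          apply hG
          refine ⟨by rw [hlen, hl.1], ?_, ?_⟩
          · intro y hy
            obtain ⟨x, hx, rfl | rfl⟩ := hm y hy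
            · exact hom_sphere a0 a1 (hl.2.1 x hx).1 (hl.2.1 x hx).2
            · exact hom_sphere b0 b1 (hl.2.1 x hx).1 (hl.2.1 x hx).2
          · intro y hy y' hy' i
            obtain ⟨x, hx, hxy⟩ := hm y hy
            obtain ⟨x', hx', hxy'⟩ := hm y' hy'
            have hb' := abs_le_one_of_sum (hl.2.1 x' hx').1 (hl.2.1 x' hx').2
            have hc := hl.2.2 x hx x' hx'
            have fin : ε / 2 + 2 * (1 / (N : ℝ)) ≤ ε := by linarith
            rcases hxy with rfl | rfl <;> rcases hxy' with rfl | rfl
            · exact (hom_close a0 a1 (by simpa using hN0) hb' hc i).trans fin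
            · refine (hom_close a0 a1 ?_ hb' hc i).trans fin
              rw [abs_sub_comm, d, abs_of_nonneg hN0]
            · refine (hom_close b0 b1 ?_ hb' hc i).trans fin
              rw [d, abs_of_nonneg hN0]
            · exact (hom_close b0 b1 (by simpa using hN0) hb' hc i).trans fin
        apply hs m le_rfl
        intro l hl
        rw [key l hl, key _ hl.neg, add_zero]
      · simp only [hkm, if_false]
        apply hs k (by omega)
        intro l hl
        exact hG l (hl.mono (by linarith))

end Vale.Agent.P052
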