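import Vale.Agent.P052.Geom

/-! Lines in four-space cannot be coloured with ten colours keeping equal colours
uniformly away from orthogonality. -/

namespace Vale.Agent.P052

structure Col (c : E4 → C10) (δ : ℝ) : Prop where
  pos : 0 < δ
  sep : ∀ x y, ‖x‖ = 1 → ‖y‖ = 1 → c x = c y → δ ≤ |inner ℝ x y|
  even : ∀ x, c (-x) = c x

variable {c : E4 → C10} {δ : ℝ}

theorem plane (h : Col c δ) {p r : E4} (hp : ‖p‖ = 1) (hr : ‖r‖ = 1) (hpr : inner ℝ p r = 0)
    {i j : C10} (hc : ∀ θ : ℝ, c (Real.cos θ • p + Real.sin θ • r) = i ∨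
      c (Real.cos θ • p + Real.sin θ • r) = j) : False := by
  let γ : ℝ → E4 := fun θ => Real.cos θ • p + Real.sin θ • r
  have hpp : inner ℝ p p = (1 : ℝ) := by rw [real_inner_self_eq_norm_sq, hp]; norm_num
  have hrr : inner ℝ r r = (1 : ℝ) := by rw [real_inner_self_eq_norm_sq, hr]; norm_num
  have hrp : inner ℝ r p = (0 : ℝ) := by rw [real_inner_comm, hpr]
  have hin : ∀ s t, inner ℝ (γ s) (γ t) = Real.cos (s - t) := by
    intro s t
    simp only [γ, inner_add_left, inner_add_right, real_inner_smul_left, real_inner_smul_right,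
      hpp, hrr, hpr, hrp, Real.cos_sub]
    ring
  have hn : ∀ s, ‖γ s‖ = 1 := by
    intro s
    have := hin s s
    rw [real_inner_self_eq_norm_sq, sub_self, Real.cos_zero] at this
    nlinarith [norm_nonneg (γ s)]
  have hne : ∀ s t, |s - t| < δ → c (γ s) ≠ c (γ (t + Real.pi / 2)) := by
    intro s t hst he
    have := h.sep _ _ (hn s) (hn _) he
    rw [hin, show s - (t + Real.pi / 2) = (s - t) - Real.pi / 2 by ring,
      Real.cos_sub_pi_div_two] at this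
    have := Real.abs_sin_le_abs (x := s - t)
    linarith
  have hloc : IsLocallyConstant (fun θ => c (γ θ)) := by
    rw [IsLocallyConstant.iff_eventually_eq]
    intro t
    have : ∀ᶠ s in nhds t, |s - t| < δ := by
      filter_upwards [Metric.ball_mem_nhds t h.pos] with s hs
      simpa [Real.dist_eq] using hs
    filter_upwards [this] with s hs
    have h1 := hne s t hs
    have h2 := hne t t (by simpa using h.pos)
    have a1 : c (γ s) = i ∨ c (γ s) = j := hc s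
    have a2 : c (γ t) = i ∨ c (γ t) = j := hc t
    have a3 : c (γ (t + Real.pi / 2)) = i ∨ c (γ (t + Real.pi / 2)) = j := hc _
    rcases a1 with a1 | a1 <;> rcases a2 with a2 | a2 <;> rcases a3 with a3 | a3 <;>
      simp_all
  exact hne 0 0 (by simpa using h.pos) (hloc.apply_eq_of_preconnectedSpace _ _)

theorem abs_mul_le_of {a b e : ℝ} (ha : |a| ≤ 1) (hb : |b| ≤ e) : |a * b| ≤ e := by
  rw [abs_mul]
  nlinarith [abs_nonneg a, abs_nonneg b]

theorem eq_one_of_sq {a : ℝ} (h0 : 0 ≤ a) (h : a ^ 2 = 1) : a = 1 := by nlinarith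

theorem aux_sq {η t : ℝ} (hη2 : 0 < η ^ 2) (f1 : η ^ 2 < 2 - 2 * t) (f2 : η ^ 2 < 2 + 2 * t) :
    (η ^ 2 / 2) ^ 2 < 1 - t ^ 2 := by
  nlinarith [mul_pos (sub_pos.2 f1) (sub_pos.2 f2), mul_pos hη2 (sub_pos.2 f1),
      mul_pos hη2 (sub_pos.2 f2)]

theorem almost_parallel (h : Col c δ) {η ε : ℝ} (hη : 0 < η) (hε : 0 < ε)
    (hsmall : ε + 4 * ε / η ^ 2 < δ) {p q : E4} (hp : ‖p‖ = 1) (hq : ‖q‖ = 1) {i j : C10}
    (hn : ∀ k, k ≠ i → k ≠ j → ∃ n : E4, ‖n‖ = 1 ∧ c n = k ∧ |inner ℝ p n| ≤ ε ∧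
      |inner ℝ q n| ≤ ε) : ‖q - p‖ ≤ η ∨ ‖q + p‖ ≤ η := by
  by_contra hcon
  push Not at hcon
  obtain ⟨h1, h2⟩ := hcon
  set t : ℝ := inner ℝ q p with ht
  have hpp : inner ℝ p p = (1 : ℝ) := by rw [real_inner_self_eq_norm_sq, hp]; norm_num
  have e1 : ‖q - p‖ ^ 2 = 2 - 2 * t := by rw [norm_sub_sq_real, hp, hq]; ring
  have e2 : ‖q + p‖ ^ 2 = 2 + 2 * t := by rw [norm_add_sq_real, hp, hq]; ring
  have f1 : η ^ 2 < 2 - 2 * t := by rw [← e1]; gcongr
  have f2 : η ^ 2 < 2 + 2 * t := by rw [← e2]; gcongr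
  have hη2 : 0 < η ^ 2 := by positivity
  have ht1 : |t| ≤ 1 := abs_le.2 ⟨by linarith, by linarith⟩
  set r0 : E4 := q - t • p with hr0
  have e3 : ‖r0‖ ^ 2 = 1 - t ^ 2 := by
    rw [hr0, norm_sub_sq_real, hq, real_inner_smul_right, norm_smul, hp, ← ht, Real.norm_eq_abs,
      mul_one, sq_abs]
    ring
  have f3 : η ^ 2 / 2 < ‖r0‖ := by
    apply lt_of_pow_lt_pow_left₀ 2 (norm_nonneg _)
    rw [e3]
    exact aux_sq hη2 f1 f2
  have hr0pos : 0 < ‖r0‖ := lt_trans (by positivity) f3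
  let r : E4 := ‖r0‖⁻¹ • r0
  have hr : ‖r‖ = 1 := by
    simp only [r]
    rw [norm_smul, norm_inv, norm_norm, inv_mul_cancel₀ hr0pos.ne']
  have hpr : inner ℝ p r = 0 := by
    simp only [r]
    rw [real_inner_smul_right, hr0, inner_sub_right, real_inner_smul_right, hpp,
      real_inner_comm, ← ht]
    ring
  apply plane h hp hr hpr (i := i) (j := j)
  intro θ
  by_contra hk
  push Not at hk
  obtain ⟨n, hn1, hn2, hn3, hn4⟩ := hn _ hk.1 hk.2
  have hu : ‖Real.cos θ • p + Real.sin θ • r‖ = 1 := by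
    have : ‖Real.cos θ • p + Real.sin θ • r‖ ^ 2 = 1 := by
      rw [norm_add_sq_real, real_inner_smul_left, real_inner_smul_right, hpr, norm_smul,
        norm_smul, hp, hr, Real.norm_eq_abs, Real.norm_eq_abs, mul_one, mul_one, sq_abs, sq_abs]
      linarith [Real.cos_sq_add_sin_sq θ]
    exact eq_one_of_sq (norm_nonneg _) this
  have hs := h.sep _ _ hu hn1 hn2.symm
  have g1 : |inner ℝ r0 n| ≤ 2 * ε := by
    rw [hr0, inner_sub_left, real_inner_smul_left]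
    calc _ ≤ |inner ℝ q n| + |t * inner ℝ p n| := abs_sub _ _
      _ ≤ ε + ε := add_le_add hn4 (abs_mul_le_of ht1 hn3)
      _ = 2 * ε := by ring
  have g2 : |inner ℝ r n| ≤ 4 * ε / η ^ 2 := by
    simp only [r]
    rw [real_inner_smul_left, abs_mul, abs_inv, abs_norm, inv_mul_le_iff₀ hr0pos]
    calc _ ≤ 2 * ε := g1
      _ = η ^ 2 / 2 * (4 * ε / η ^ 2) := by field_simp; ring
      _ ≤ _ := by gcongr
  rw [inner_add_left, real_inner_smul_left, real_inner_smul_left] at hs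
  have g3 : |Real.cos θ * inner ℝ p n + Real.sin θ * inner ℝ r n| ≤ ε + 4 * ε / η ^ 2 := by
    refine (abs_add_le _ _).trans (add_le_add ?_ ?_)
    · exact abs_mul_le_of (Real.abs_cos_le_one θ) hn3
    · exact abs_mul_le_of (Real.abs_sin_le_one θ) g2
  linarith

/-- sign of an inner product -/
noncomputable def sg (x p : E4) : F := if inner ℝ x p < 0 then 1 else 0

theorem sg_close {x y p q : E4} {δ η : ℝ} (hη : 2 * η < δ) (hx : ‖x‖ = 1) (hq : ‖q‖ = 1)
    (h1 : δ ≤ |inner ℝ x p|) (hxy : ‖x - y‖ ≤ η) (hpq : ‖q - p‖ ≤ η) : sg x p = sg y q := by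
  have e : inner ℝ y q = inner ℝ x p + (inner ℝ x (q - p) - inner ℝ (x - y) q) := by
    rw [inner_sub_right, inner_sub_left]; ring
  have a1 := abs_real_inner_le_norm x (q - p)
  have a2 := abs_real_inner_le_norm (x - y) q
  rw [hx, one_mul] at a1
  rw [hq, mul_one] at a2
  have b1 := abs_le.1 (a1.trans hpq)
  have b2 := abs_le.1 (a2.trans hxy)
  simp only [sg]
  by_cases h : inner ℝ x p < 0
  · rw [abs_of_neg h] at h1
    rw [if_pos h, if_pos (by linarith [b1.2, b2.1])]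
  · rw [abs_of_nonneg (not_lt.1 h)] at h1
    rw [if_neg h, if_neg (by linarith [b1.1, b2.2])]

theorem sg_neg_right {x p : E4} (h : inner ℝ x p ≠ 0) : sg x (-p) = sg x p + 1 := by
  simp only [sg, inner_neg_right]
  by_cases h1 : inner ℝ x p < 0
  · rw [if_pos h1, if_neg (by linarith)]; rfl
  · rw [if_neg h1, if_pos (by have := lt_of_le_of_ne (not_lt.1 h1) h.symm; linarith)]; rfl

theorem sg_neg_left {x p : E4} (h : inner ℝ x p ≠ 0) : sg (-x) p = sg x p + 1 := by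
  rw [← sg_neg_right h]
  simp only [sg, inner_neg_right, inner_neg_left]

theorem st1_of_col (h : Col c δ) {ε : ℝ} (hεδ : ε < δ) : St1 c (Adm1 ε) := by
  constructor
  · intro M hM
    constructor
    · intro a ha
      obtain ⟨a', ha', rfl⟩ := Multiset.mem_map.1 ha
      exact hM.1 a' ha'
    · intro a ha b hb hab
      obtain ⟨a', ha', rfl⟩ := Multiset.mem_map.1 ha
      obtain ⟨b', hb', rfl⟩ := Multiset.mem_map.1 hb
      exact hM.2 a' ha' b' hb' (fun h => hab (by simp only [flip, h]))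
  · intro M hM a ha b hb hab
    by_contra hne
    have h1 := hM.2 a ha b hb hne
    have h2 := h.sep _ _ (hM.1 a ha) (hM.1 b hb) hab
    linarith

theorem Adm1.unit {ε : ℝ} {M : Multiset (E4 × F)} (hM : Adm1 ε M) {p : E4} (hp : p ∈ pos M) :
    ‖p‖ = 1 := hM.1 (p, 0) (mem_pos.1 hp)

theorem wt_cong1 {ε : ℝ} (hS : St1 c (Adm1 ε)) (K : KF flip (Adm1 ε) 9) (i : C10) (φ ψ : E4 → F)
    (hφ : ∀ p, ‖p‖ = 1 → c p = i → φ p = ψ p) :
    wt K c (Finset.univ.erase i) φ = wt K c (Finset.univ.erase i) ψ := by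
  apply wt_congr hS
  intro M hM _ hT
  congr 1
  apply Multiset.map_congr rfl
  intro p hp
  exact hφ p (hM.unit hp) (by simpa using hS.pos_col hM hT hp)

theorem sg_pair (h : Col c δ) {η : ℝ} (hη : 0 < η) (hη2 : 2 * η < δ) {x y : E4} (hx : ‖x‖ = 1)
    (hy : ‖y‖ = 1) (hxy : ‖x - y‖ ≤ η) {p q : E4} (hp : ‖p‖ = 1) (hq : ‖q‖ = 1)
    (cp : c p = c x ∨ c p = c y) (cq : c q = c x ∨ c q = c y) :
    (‖q - p‖ ≤ η → sg (if c p = c x then x else y) p + sg (if c q = c x then x else y) q = 0) ∧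
    (‖q + p‖ ≤ η → sg (if c p = c x then x else y) p + sg (if c q = c x then x else y) q = 1) := by
  have hδ := h.pos
  obtain ⟨z, hz, hz1, hz2⟩ : ∃ z, (if c p = c x then x else y) = z ∧ c z = c p ∧
      (z = x ∨ z = y) := by
    by_cases h1 : c p = c x
    · exact ⟨x, if_pos h1, h1.symm, Or.inl rfl⟩
    · exact ⟨y, if_neg h1, (cp.resolve_left h1).symm, Or.inr rfl⟩
  obtain ⟨w, hw, hw1, hw2⟩ : ∃ w, (if c q = c x then x else y) = w ∧ c w = c q ∧
      (w = x ∨ w = y) := by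
    by_cases h1 : c q = c x
    · exact ⟨x, if_pos h1, h1.symm, Or.inl rfl⟩
    · exact ⟨y, if_neg h1, (cq.resolve_left h1).symm, Or.inr rfl⟩
  rw [hz, hw]
  have hzn : ‖z‖ = 1 := by rcases hz2 with rfl | rfl <;> assumption
  have hzw : ‖z - w‖ ≤ η := by
    rcases hz2 with rfl | rfl <;> rcases hw2 with rfl | rfl
    · simpa using hη.le
    · exact hxy
    · rw [norm_sub_rev]; exact hxy
    · simpa using hη.le
  have hzp := h.sep z p hzn hp hz1
  constructor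
  · intro hqp
    rw [sg_close hη2 hzn hq hzp hzw hqp, F_add_self]
  · intro hqp
    have h0 : inner ℝ z p ≠ 0 := by
      intro h0
      rw [h0, abs_zero] at hzp
      linarith
    have := sg_close (p := -p) hη2 hzn hq (by rwa [inner_neg_right, abs_neg]) hzw
      (by rwa [sub_neg_eq_add])
    rw [← this, sg_neg_right h0, ← add_assoc, F_add_self, zero_add]

/-- the sign function obtained by averaging over the odd cycle -/
noncomputable def gfun {ε : ℝ} (K : KF flip (Adm1 ε) 9) (c : E4 → C10) (x : E4) : F :=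
  wt K c (Finset.univ.erase (c x)) (sg x)

theorem gfun_same (h : Col c δ) {η ε : ℝ} (hη : 0 < η) (hη2 : 2 * η < δ) (hS : St1 c (Adm1 ε))
    (K : KF flip (Adm1 ε) 9) {x y : E4} (hx : ‖x‖ = 1) (hxy : ‖x - y‖ ≤ η) (hc : c x = c y) :
    gfun K c x = gfun K c y := by
  rw [gfun, gfun, ← hc]
  apply wt_cong1 hS
  intro p hp hcp
  exact sg_close hη2 hx hp (h.sep x p hx hp hcp.symm) hxy (by simpa using hη.le)

theorem gfun_door {ε : ℝ} (hS : St1 c (Adm1 ε)) (K : KF flip (Adm1 ε) 9) {x y : E4}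
    (hc : c x ≠ c y) : gfun K c x + gfun K c y =
      wt K c ((Finset.univ.erase (c x)).erase (c y))
        (fun p => sg (if c p = c x then x else y) p) := by
  rw [← wt_door hS K hc, gfun, gfun]
  have e1 := wt_cong1 hS K (c x) (sg x) (fun p => sg (if c p = c x then x else y) p) (by
    intro p _ hcp
    simp only [if_pos hcp])
  have e2 := wt_cong1 hS K (c y) (sg y) (fun p => sg (if c p = c x then x else y) p) (by
    intro p _ hcp
    have : ¬ c p = c x := by rw [hcp]; exact hc.symm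
    simp only [if_neg this])
  rw [e1, e2]

theorem gfun_neg (h : Col c δ) {ε : ℝ} (hS : St1 c (Adm1 ε)) (K : KF flip (Adm1 ε) 9) {x : E4}
    (hx : ‖x‖ = 1) : gfun K c (-x) = gfun K c x + 1 := by
  have e := wt_add (c := c) K (Finset.univ.erase (c x)) (sg x) (fun _ => 1)
  rw [wt_one hS K (c x)] at e
  rw [gfun, gfun, h.even, ← e]
  apply wt_cong1 hS
  intro p hp hcp
  apply sg_neg_left
  intro h0
  have := h.sep x p hx hp hcp.symm
  rw [h0, abs_zero] at this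
  linarith [h.pos]

theorem gfun_indep (h : Col c δ) {η ε : ℝ} (hη : 0 < η) (hη2 : 2 * η < δ) (hε : 0 < ε)
    (hsmall : ε + 4 * ε / η ^ 2 < δ) (hS : St1 c (Adm1 ε)) (K : KF flip (Adm1 ε) 9)
    {x y x' y' : E4} (hx : ‖x‖ = 1) (hy : ‖y‖ = 1) (hxy : ‖x - y‖ ≤ η) (hx' : ‖x'‖ = 1)
    (hy' : ‖y'‖ = 1) (hxy' : ‖x' - y'‖ ≤ η) (cx : c x' = c x) (cy : c y' = c y) :
    gfun K c x + gfun K c y = gfun K c x' + gfun K c y' := by
  by_cases hc : c x = c y
  · rw [gfun_same h hη hη2 hS K hx hxy hc,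
      gfun_same h hη hη2 hS K hx' hxy' (by rw [cx, cy, hc]), F_add_self, F_add_self]
  · rw [gfun_door hS K hc, gfun_door hS K (by rw [cx, cy]; exact hc), cx, cy]
    apply wt_congr hS
    intro M hM hcard hT
    have hcn : Multiset.card (neg M) = 8 := by
      have := congrArg Multiset.card hT
      rw [Multiset.card_map] at this
      rw [this, Finset.card_val, Finset.card_erase_of_mem (by simp [Ne.symm hc]),
        Finset.card_erase_of_mem (Finset.mem_univ _)]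
      rfl
    have hcp : Multiset.card (pos M) = 2 := by
      have := card_pos_neg M
      omega
    obtain ⟨p, q, hpq⟩ := Multiset.card_eq_two.1 hcp
    have hp : p ∈ pos M := by rw [hpq]; simp
    have hq : q ∈ pos M := by rw [hpq]; simp
    have col : ∀ r ∈ pos M, c r = c x ∨ c r = c y := by
      intro r hr
      have := hS.pos_col hM hT hr
      simp only [Finset.mem_erase, Finset.mem_univ, and_true, not_and, not_not] at this
      tauto
    have hpar := almost_parallel h hη hε hsmall (hM.unit hp) (hM.unit hq)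
      (i := c x) (j := c y) (by
        intro k h1 h2
        have : k ∈ (neg M).map c := by
          rw [hT]
          exact Finset.mem_def.1 (by simp [h1, h2])
        obtain ⟨n, hn, hk⟩ := Multiset.mem_map.1 this
        exact ⟨n, hM.1 (n, 1) (mem_neg.1 hn), hk,
          hM.2 (p, 0) (mem_pos.1 hp) (n, 1) (mem_neg.1 hn) zero_ne_one,
          hM.2 (q, 0) (mem_pos.1 hq) (n, 1) (mem_neg.1 hn) zero_ne_one⟩)
    have r1 := sg_pair h hη hη2 hx hy hxy (hM.unit hp) (hM.unit hq) (col p hp) (col q hq)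
    have r2 := sg_pair h hη hη2 hx' hy' hxy' (hM.unit hp) (hM.unit hq)
      (by rw [cx, cy]; exact col p hp) (by rw [cx, cy]; exact col q hq)
    rw [cx] at r2
    rw [hpq]
    simp only [Multiset.insert_eq_cons, Multiset.map_cons, Multiset.map_singleton,
      Multiset.sum_cons, Multiset.sum_singleton]
    rcases hpar with hpar | hpar
    · rw [r1.1 hpar, r2.1 hpar]
    · rw [r1.2 hpar, r2.2 hpar]

theorem exists_ind (P : Prop) : ∃ a : F, (P → a = 1) ∧ (¬ P → a = 0) := by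
  by_cases h : P
  · exact ⟨1, fun _ => rfl, fun h' => absurd h h'⟩
  · exact ⟨0, fun h' => absurd h' h, fun _ => rfl⟩

theorem pullback (h : Col c δ) : ∃ η : ℝ, 0 < η ∧ ∃ (u : C10 → C10 → F) (g : E4 → F),
    (∀ i j, u i j = u j i) ∧ (∀ i, u i i = 0) ∧ (∀ x, ‖x‖ = 1 → g (-x) = g x + 1) ∧
      ∀ x y, ‖x‖ = 1 → ‖y‖ = 1 → ‖x - y‖ ≤ η → g x + g y = u (c x) (c y) := by
  have hδ := h.pos
  obtain ⟨η, hη, hη2⟩ : ∃ η : ℝ, 0 < η ∧ 2 * η < δ := ⟨δ / 4, by positivity, by linarith⟩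
  obtain ⟨ε, hε, hsmall⟩ : ∃ ε : ℝ, 0 < ε ∧ ε + 4 * ε / η ^ 2 < δ := by
    refine ⟨δ / (2 * (1 + 4 / η ^ 2)), by positivity, ?_⟩
    have : δ / (2 * (1 + 4 / η ^ 2)) + 4 * (δ / (2 * (1 + 4 / η ^ 2))) / η ^ 2 = δ / 2 := by
      field_simp
    linarith
  have hεδ : ε < δ := by
    have : 0 ≤ 4 * ε / η ^ 2 := by positivity
    linarith
  obtain ⟨K⟩ := exists_KF1 hε
  have hS := st1_of_col h hεδ
  choose u hu1 hu0 using fun i j : C10 => exists_ind (∃ x y : E4, ‖x‖ = 1 ∧ ‖y‖ = 1 ∧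
    ‖x - y‖ ≤ η ∧ c x = i ∧ c y = j ∧ gfun K c x + gfun K c y = 1)
  refine ⟨η, hη, u, gfun K c, ?_, ?_, fun x hx => gfun_neg h hS K hx, ?_⟩
  · intro i j
    by_cases hex : ∃ x y : E4, ‖x‖ = 1 ∧ ‖y‖ = 1 ∧
        ‖x - y‖ ≤ η ∧ c x = i ∧ c y = j ∧ gfun K c x + gfun K c y = 1
    · rw [hu1 i j hex, hu1 j i]
      obtain ⟨x, y, h1, h2, h3, h4, h5, h6⟩ := hex
      exact ⟨y, x, h2, h1, by rwa [norm_sub_rev], h5, h4, by rwa [add_comm]⟩
    · rw [hu0 i j hex, hu0 j i]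
      rintro ⟨x, y, h1, h2, h3, h4, h5, h6⟩
      exact hex ⟨y, x, h2, h1, by rwa [norm_sub_rev], h5, h4, by rwa [add_comm]⟩
  · intro i
    apply hu0
    rintro ⟨x, y, h1, h2, h3, h4, h5, h6⟩
    rw [gfun_same h hη hη2 hS K h1 h3 (h4.trans h5.symm), F_add_self] at h6
    exact zero_ne_one h6
  · intro x y hx hy hxy
    by_cases hex : ∃ x' y' : E4, ‖x'‖ = 1 ∧ ‖y'‖ = 1 ∧
        ‖x' - y'‖ ≤ η ∧ c x' = c x ∧ c y' = c y ∧ gfun K c x' + gfun K c y' = 1
    · rw [hu1 _ _ hex]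
      obtain ⟨x', y', h1, h2, h3, h4, h5, h6⟩ := hex
      rw [gfun_indep h hη hη2 hε hsmall hS K hx hy hxy h1 h2 h3 h4 h5, h6]
    · rw [hu0 _ _ hex]
      rcases F_cases (gfun K c x + gfun K c y) with h0 | h0
      · exact h0
      · exact absurd ⟨x, y, hx, hy, hxy, rfl, rfl, h0⟩ hex

theorem le_of_sq_le_sq_aux {a b : ℝ} (hb : 0 ≤ b) (h : a ^ 2 ≤ b ^ 2) : a ≤ b :=
  le_trans (le_abs_self a) (abs_le_of_sq_le_sq' h hb |> abs_le.2)

/-- radial projection to the round sphere -/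
noncomputable def nrm (a : ℕ → ℝ) : E4 :=
  ‖(!₂[a 0, a 1, a 2, a 3] : E4)‖⁻¹ • (!₂[a 0, a 1, a 2, a 3] : E4)

theorem vec_lower {a : ℕ → ℝ} (ha : ∑ i ∈ Finset.range (3 + 1), |a i| = 1) :
    1 / 4 ≤ ‖(!₂[a 0, a 1, a 2, a 3] : E4)‖ := by
  have h0 := PiLp.norm_apply_le (!₂[a 0, a 1, a 2, a 3] : E4) 0
  have h1 := PiLp.norm_apply_le (!₂[a 0, a 1, a 2, a 3] : E4) 1
  have h2 := PiLp.norm_apply_le (!₂[a 0, a 1, a 2, a 3] : E4) 2
  have h3 := PiLp.norm_apply_le (!₂[a 0, a 1, a 2, a 3] : E4) 3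
  simp only [Finset.sum_range_succ, Finset.range_zero, Finset.sum_empty] at ha
  generalize ‖(!₂[a 0, a 1, a 2, a 3] : E4)‖ = m at *
  simp at h0 h1 h2 h3
  linarith

theorem normalize_close {x y : E4} {m : ℝ} (hm : 0 < m) (hx : m ≤ ‖x‖) (hy : m ≤ ‖y‖) :
    ‖‖x‖⁻¹ • x - ‖y‖⁻¹ • y‖ ≤ 2 * ‖x - y‖ / m := by
  have hx0 : 0 < ‖x‖ := hm.trans_le hx
  have hy0 : 0 < ‖y‖ := hm.trans_le hy
  have e : ‖x‖⁻¹ • x - ‖y‖⁻¹ • y = ‖x‖⁻¹ • (x - y) + (‖x‖⁻¹ - ‖y‖⁻¹) • y := by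
    rw [smul_sub, sub_smul]; abel
  have a1 : ‖‖x‖⁻¹ • (x - y)‖ ≤ ‖x - y‖ / m := by
    rw [norm_smul, norm_inv, norm_norm, inv_mul_eq_div]
    gcongr
  have a2 : ‖(‖x‖⁻¹ - ‖y‖⁻¹) • y‖ ≤ ‖x - y‖ / m := by
    rw [norm_smul, Real.norm_eq_abs]
    have : |‖x‖⁻¹ - ‖y‖⁻¹| * ‖y‖ = |‖y‖ - ‖x‖| / ‖x‖ := by
      rw [show ‖x‖⁻¹ - ‖y‖⁻¹ = (‖y‖ - ‖x‖) / (‖x‖ * ‖y‖) by field_simp, abs_div,
        abs_of_pos (mul_pos hx0 hy0)]
      field_simp
    rw [this]
    have h := abs_norm_sub_norm_le y x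
    rw [norm_sub_rev] at h
    gcongr
  rw [e]
  calc _ ≤ _ := norm_add_le _ _
    _ ≤ ‖x - y‖ / m + ‖x - y‖ / m := add_le_add a1 a2
    _ = _ := by ring

theorem vec_close {a b : ℕ → ℝ} {ε : ℝ} (h : ∀ i, |a i - b i| ≤ ε) :
    ‖(!₂[a 0, a 1, a 2, a 3] : E4) - !₂[b 0, b 1, b 2, b 3]‖ ≤ 2 * ε := by
  have hε : 0 ≤ ε := (abs_nonneg _).trans (h 0)
  apply le_of_sq_le_sq_aux (by positivity)
  rw [← real_inner_self_eq_norm_sq, inner_E4]
  have h0 := abs_le.1 (h 0)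
  have h1 := abs_le.1 (h 1)
  have h2 := abs_le.1 (h 2)
  have h3 := abs_le.1 (h 3)
  simp
  nlinarith

theorem no_colouring (h : Col c δ) : False := by
  obtain ⟨η, hη, u, g, hs, hd, hodd, hg⟩ := pullback h
  obtain ⟨K⟩ := exists_KF 3 (ε := η / 16) (by positivity)
  have hunit : ∀ a : ℕ → ℝ, ∑ i ∈ Finset.range (3 + 1), |a i| = 1 → ‖nrm a‖ = 1 := by
    intro a ha
    have := vec_lower ha
    rw [nrm, norm_smul, norm_inv, norm_norm, inv_mul_cancel₀ (by linarith)]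
  refine stage2 hs hd (K.push flip (AdmU u) (fun a => (c (nrm a), g (nrm a))) ?_ ?_)
  · intro M hM a ha
    have e : nrm (-a) = - nrm a := by
      have : (!₂[(-a) 0, (-a) 1, (-a) 2, (-a) 3] : E4) = - !₂[a 0, a 1, a 2, a 3] := by
        ext i
        fin_cases i <;> simp
      rw [nrm, this, norm_neg, smul_neg, nrm]
    simp only [flip, e, h.even, hodd _ (hunit a (hM.1 a ha))]
  · intro M hM a ha b hb
    obtain ⟨a', ha', rfl⟩ := Multiset.mem_map.1 ha
    obtain ⟨b', hb', rfl⟩ := Multiset.mem_map.1 hb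
    apply hg _ _ (hunit _ (hM.1 _ ha')) (hunit _ (hM.1 _ hb'))
    have h1 := normalize_close (m := 1 / 4) (by norm_num) (vec_lower (hM.1 _ ha'))
      (vec_lower (hM.1 _ hb'))
    have h2 := vec_close (hM.2 _ ha' _ hb')
    refine h1.trans ?_
    rw [div_le_iff₀ (by norm_num)]
    linarith

end Vale.Agent.P052
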