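import Vale.Agent.P052.Colour

/-! The Veronese embedding together with extra orthogonal points. -/

namespace Vale.Agent.P052

theorem exists_proj {ι : Type} [Fintype ι] {d : ℕ} (hd : Fintype.card ι = d + 1)
    (w : EuclideanSpace ℝ ι) (hw : w ≠ 0) :
    ∃ π : EuclideanSpace ℝ ι → EuclideanSpace ℝ (Fin d),
      ∀ y y', inner ℝ w y = inner ℝ w y' → dist (π y) (π y') = dist y y' := by
  haveI : Fact (Module.finrank ℝ (EuclideanSpace ℝ ι) = d + 1) := ⟨by simp [hd]⟩
  let e := (OrthonormalBasis.fromOrthogonalSpanSingleton (𝕜 := ℝ) d hw).repr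
  refine ⟨fun y => e ((ℝ ∙ w)ᗮ.orthogonalProjection y), ?_⟩
  intro y y' h
  have hm : y - y' ∈ (ℝ ∙ w)ᗮ := by
    rw [Submodule.mem_orthogonal_singleton_iff_inner_right, inner_sub_right, h, sub_self]
  rw [dist_eq_norm, dist_eq_norm, ← map_sub, e.norm_map, ← map_sub]
  have := Submodule.orthogonalProjection_mem_subspace_eq_self (K := (ℝ ∙ w)ᗮ) ⟨y - y', hm⟩
  simp only at this
  rw [this]
  rfl

/-- rank one projector in orthonormal coordinates -/
noncomputable def ver (k : ℕ) (x : E4) : EuclideanSpace ℝ (Fin 10 ⊕ Fin k) :=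
  WithLp.toLp 2 (Sum.elim ![x 0 * x 0, x 1 * x 1, x 2 * x 2, x 3 * x 3, √2 * (x 0 * x 1),
    √2 * (x 0 * x 2), √2 * (x 0 * x 3), √2 * (x 1 * x 2), √2 * (x 1 * x 3), √2 * (x 2 * x 3)]
    (fun _ => 0))

/-- extra points -/
noncomputable def apex (k : ℕ) (j : Fin k) : EuclideanSpace ℝ (Fin 10 ⊕ Fin k) :=
  EuclideanSpace.single (Sum.inr j) 1

/-- normal vector of the common hyperplane -/
noncomputable def nv (k : ℕ) : EuclideanSpace ℝ (Fin 10 ⊕ Fin k) :=
  WithLp.toLp 2 (Sum.elim ![1, 1, 1, 1, 0, 0, 0, 0, 0, 0] (fun _ => 1))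

theorem ver_neg (k : ℕ) (x : E4) : ver k (-x) = ver k x := by
  simp [ver]

theorem inner_ver (k : ℕ) (x y : E4) : inner ℝ (ver k x) (ver k y) = (inner ℝ x y) ^ 2 := by
  have h : √2 * √2 = 2 := Real.mul_self_sqrt (by norm_num)
  rw [inner_E4]
  simp only [ver, PiLp.inner_apply, Fintype.sum_sum_type, Fin.sum_univ_succ, RCLike.inner_apply,
    conj_trivial]
  simp
  linear_combination (x 0 * x 1 * y 0 * y 1 + x 0 * x 2 * y 0 * y 2 + x 0 * x 3 * y 0 * y 3 +
    x 1 * x 2 * y 1 * y 2 + x 1 * x 3 * y 1 * y 3 + x 2 * x 3 * y 2 * y 3) * h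

theorem inner_nv_ver (k : ℕ) (x : E4) : inner ℝ (nv k) (ver k x) = inner ℝ x x := by
  rw [inner_E4]
  simp only [ver, nv, PiLp.inner_apply, Fintype.sum_sum_type, Fin.sum_univ_succ,
    RCLike.inner_apply, conj_trivial]
  simp
  ring

theorem inner_nv_apex (k : ℕ) (j : Fin k) : inner ℝ (nv k) (apex k j) = 1 := by
  simp [apex, nv, EuclideanSpace.inner_single_right]

theorem inner_ver_apex (k : ℕ) (x : E4) (j : Fin k) : inner ℝ (ver k x) (apex k j) = 0 := by
  simp [apex, ver, EuclideanSpace.inner_single_right]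

theorem inner_apex (k : ℕ) (i j : Fin k) :
    inner ℝ (apex k i) (apex k j) = if i = j then (1 : ℝ) else 0 := by
  simp only [apex, EuclideanSpace.inner_single_right, PiLp.single_apply]
  simp [eq_comm]

theorem nv_ne (k : ℕ) : nv k ≠ 0 := by
  intro h
  have := congrArg (fun v : EuclideanSpace ℝ (Fin 10 ⊕ Fin k) => v (Sum.inl 0)) h
  simp [nv] at this

/-- all points of the configuration -/
noncomputable def pt (k : ℕ) : {x : E4 // ‖x‖ = 1} ⊕ Fin k → EuclideanSpace ℝ (Fin 10 ⊕ Fin k) :=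
  Sum.elim (fun x => ver k x.1) (apex k)

theorem inner_unit {x : E4} (hx : ‖x‖ = 1) : inner ℝ x x = (1 : ℝ) := by
  rw [real_inner_self_eq_norm_sq, hx]; norm_num

theorem pt_self (k : ℕ) (a) : inner ℝ (pt k a) (pt k a) = (1 : ℝ) := by
  rcases a with x | j
  · simp only [pt, Sum.elim_inl]
    rw [inner_ver, inner_unit x.2]; norm_num
  · simp only [pt, Sum.elim_inr]
    rw [inner_apex, if_pos rfl]

theorem pt_nonneg (k : ℕ) (a b) : (0 : ℝ) ≤ inner ℝ (pt k a) (pt k b) := by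
  rcases a with x | i <;> rcases b with y | j <;> simp only [pt, Sum.elim_inl, Sum.elim_inr]
  · rw [inner_ver]; positivity
  · rw [inner_ver_apex]
  · rw [real_inner_comm, inner_ver_apex]
  · rw [inner_apex]; split_ifs <;> norm_num

theorem pt_nv (k : ℕ) (a) : inner ℝ (nv k) (pt k a) = (1 : ℝ) := by
  rcases a with x | j
  · simp only [pt, Sum.elim_inl]
    rw [inner_nv_ver, inner_unit x.2]
  · exact inner_nv_apex k j

theorem pt_dist (k : ℕ) (a b) :
    dist (pt k a) (pt k b) ^ 2 = 2 - 2 * inner ℝ (pt k a) (pt k b) := by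
  rw [dist_eq_norm, norm_sub_sq_real, ← real_inner_self_eq_norm_sq,
    ← real_inner_self_eq_norm_sq, pt_self, pt_self]
  ring

theorem borsuk_fails (k : ℕ) : ∃ Y : Set (EuclideanSpace ℝ (Fin (9 + k))),
    Bornology.IsBounded Y ∧ 0 < Metric.diam Y ∧
      ¬ ∃ A : Fin (9 + k + 1) → Set (EuclideanSpace ℝ (Fin (9 + k))),
        (⋃ i, A i) = Y ∧ ∀ i, Metric.diam (A i) < Metric.diam Y := by
  classical
  obtain ⟨π, hπ⟩ := exists_proj (ι := Fin 10 ⊕ Fin k) (d := 9 + k) (by simp; omega) (nv k)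
    (nv_ne k)
  have hd : ∀ a b, dist (π (pt k a)) (π (pt k b)) ^ 2 = 2 - 2 * inner ℝ (pt k a) (pt k b) := by
    intro a b
    rw [hπ _ _ (by rw [pt_nv, pt_nv]), pt_dist]
  have hs2 : √2 ^ 2 = 2 := Real.sq_sqrt (by norm_num)
  have hs0 : 0 < √2 := Real.sqrt_pos.2 (by norm_num)
  have hle : ∀ y ∈ Set.range (fun a => π (pt k a)), ∀ y' ∈ Set.range (fun a => π (pt k a)),
      dist y y' ≤ √2 := by
    rintro _ ⟨a, rfl⟩ _ ⟨b, rfl⟩
    apply le_of_sq_le_sq_aux hs0.le
    rw [hd, hs2]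
    linarith [pt_nonneg k a b]
  have hb : Bornology.IsBounded (Set.range (fun a => π (pt k a))) :=
    Metric.isBounded_iff.2 ⟨√2, fun y hy y' hy' => hle y hy y' hy'⟩
  have hdiam : Metric.diam (Set.range (fun a => π (pt k a))) ≤ √2 :=
    Metric.diam_le_of_forall_dist_le hs0.le hle
  have hpos : 0 < Metric.diam (Set.range (fun a => π (pt k a))) := by
    let a : {x : E4 // ‖x‖ = 1} ⊕ Fin k := Sum.inl ⟨EuclideanSpace.single 0 1, by simp⟩
    let b : {x : E4 // ‖x‖ = 1} ⊕ Fin k := Sum.inl ⟨EuclideanSpace.single 1 1, by simp⟩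
    have h1 := hd a b
    have h2 : inner ℝ (pt k a) (pt k b) = (0 : ℝ) := by
      simp only [a, b, pt, Sum.elim_inl]
      rw [inner_ver, inner_E4]
      simp
    have h3 := Metric.dist_le_diam_of_mem hb ⟨a, rfl⟩ ⟨b, rfl⟩
    refine lt_of_lt_of_le ?_ h3
    rw [h2] at h1
    have h4 : 0 ≤ dist (π (pt k a)) (π (pt k b)) := dist_nonneg
    rcases h4.lt_or_eq with h5 | h5
    · exact h5
    · rw [← h5] at h1; norm_num at h1
  refine ⟨_, hb, hpos, ?_⟩
  rintro ⟨A, hA, hlt⟩
  obtain ⟨i0, hi0⟩ := Finite.exists_max (fun i => Metric.diam (A i))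
  set D := Metric.diam (A i0) with hD
  have hD0 : 0 ≤ D := Metric.diam_nonneg
  have hD2 : D < √2 := (hlt i0).trans_le hdiam
  have hD3 : 0 < 1 - D ^ 2 / 2 := by nlinarith
  have hex : ∀ y, ∃ i, y ∈ Set.range (fun a => π (pt k a)) → y ∈ A i := by
    intro y
    by_cases hy : y ∈ Set.range (fun a => π (pt k a))
    · rw [← hA] at hy
      obtain ⟨i, hi⟩ := Set.mem_iUnion.1 hy
      exact ⟨i, fun _ => hi⟩
    · exact ⟨0, fun h => absurd h hy⟩
  choose idx hidx using hex
  have key : ∀ a b, idx (π (pt k a)) = idx (π (pt k b)) →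
      1 - D ^ 2 / 2 ≤ inner ℝ (pt k a) (pt k b) := by
    intro a b hab
    have ha := hidx _ ⟨a, rfl⟩
    have hb' := hidx _ ⟨b, rfl⟩
    rw [← hab] at hb'
    have hsub : A (idx (π (pt k a))) ⊆ Set.range (fun a => π (pt k a)) := by
      rw [← hA]; exact Set.subset_iUnion A _
    have h1 := (Metric.dist_le_diam_of_mem (hb.subset hsub) ha hb').trans (hi0 _)
    have h2 := hd a b
    have h3 : dist (π (pt k a)) (π (pt k b)) ^ 2 ≤ D ^ 2 := by gcongr
    linarith
  let ap : Fin k → Fin (9 + k + 1) := fun j => idx (π (pt k (Sum.inr j)))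
  have hap : Function.Injective ap := by
    intro i j hij
    have := key (Sum.inr i) (Sum.inr j) hij
    simp only [pt, Sum.elim_inr, inner_apex] at this
    by_contra hne
    rw [if_neg hne] at this
    linarith
  let U : Finset (Fin (9 + k + 1)) := (Finset.univ.image ap)ᶜ
  have hU : U.card = 10 := by
    simp only [U]
    rw [Finset.card_compl, Finset.card_image_of_injective _ hap]
    simp only [Fintype.card_fin, Finset.card_univ]
    omega
  have hmem : ∀ x : E4, ‖x‖ = 1 → idx (π (ver k x)) ∈ U := by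
    intro x hx
    simp only [U, Finset.mem_compl, Finset.mem_image, Finset.mem_univ, true_and, not_exists]
    intro j hj
    have := key (Sum.inl ⟨x, hx⟩) (Sum.inr j) hj.symm
    simp only [pt, Sum.elim_inl, Sum.elim_inr, inner_ver_apex] at this
    linarith
  let e := Finset.equivFinOfCardEq hU
  let f : Fin (9 + k + 1) → C10 := fun i => if h : i ∈ U then e ⟨i, h⟩ else 0
  apply no_colouring (c := fun x => f (idx (π (ver k x)))) (δ := √(1 - D ^ 2 / 2))
  refine ⟨Real.sqrt_pos.2 hD3, ?_, fun x => by simp only [ver_neg]⟩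
  intro x y hx hy hc
  simp only [f, dif_pos (hmem x hx), dif_pos (hmem y hy)] at hc
  have h1 : idx (π (ver k x)) = idx (π (ver k y)) := congrArg Subtype.val (e.injective hc)
  have h2 := key (Sum.inl ⟨x, hx⟩) (Sum.inl ⟨y, hy⟩) h1
  simp only [pt, Sum.elim_inl, inner_ver] at h2
  exact Real.sqrt_le_iff.2 ⟨abs_nonneg _, by rwa [sq_abs]⟩

end Vale.Agent.P052
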