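import Vale.Agent.P052.Stage1

/-! Top eigenvectors of symmetric four by four matrices. -/

namespace Vale.Agent.P052

abbrev E4 := EuclideanSpace ℝ (Fin 4)

theorem inner_E4 (x y : E4) :
    inner ℝ x y = x 0 * y 0 + x 1 * y 1 + x 2 * y 2 + x 3 * y 3 := by
  simp only [PiLp.inner_apply, Fin.sum_univ_four, RCLike.inner_apply, conj_trivial]
  ring

/-- the symmetric bilinear form with coefficients `a` -/
def Bf (a : ℕ → ℝ) (x y : E4) : ℝ :=
  a 0 * (x 0 * y 0) + a 1 * (x 1 * y 1) + a 2 * (x 2 * y 2) + a 3 * (x 3 * y 3) +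
  a 4 * (x 0 * y 1 + x 1 * y 0) + a 5 * (x 0 * y 2 + x 2 * y 0) + a 6 * (x 0 * y 3 + x 3 * y 0) +
  a 7 * (x 1 * y 2 + x 2 * y 1) + a 8 * (x 1 * y 3 + x 3 * y 1) + a 9 * (x 2 * y 3 + x 3 * y 2)

theorem Bf_symm (a : ℕ → ℝ) (x y : E4) : Bf a x y = Bf a y x := by
  simp only [Bf]; ring

theorem Bf_neg (a : ℕ → ℝ) (x y : E4) : Bf (-a) x y = - Bf a x y := by
  simp only [Bf, Pi.neg_apply]; ring

theorem Bf_smul (a : ℕ → ℝ) (r : ℝ) (x : E4) : Bf a (r • x) (r • x) = r ^ 2 * Bf a x x := by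
  simp only [Bf, PiLp.smul_apply, smul_eq_mul]; ring

theorem Bf_expand (a : ℕ → ℝ) (s : ℝ) (p y : E4) :
    Bf a (p + s • y) (p + s • y) = Bf a p p + 2 * s * Bf a p y + s ^ 2 * Bf a y y := by
  simp only [Bf, PiLp.add_apply, PiLp.smul_apply, smul_eq_mul]; ring

def IsTop (a : ℕ → ℝ) (p : E4) : Prop := ‖p‖ = 1 ∧ ∀ y : E4, ‖y‖ = 1 → |Bf a y y| ≤ |Bf a p p|

theorem exists_isTop (a : ℕ → ℝ) : ∃ p, IsTop a p := by
  have hc : Continuous (fun y : E4 => |Bf a y y|) := by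
    unfold Bf
    fun_prop
  obtain ⟨p, hp, hmax⟩ := (isCompact_sphere (0 : E4) 1).exists_isMaxOn
    (NormedSpace.sphere_nonempty.2 zero_le_one) hc.continuousOn
  exact ⟨p, by simpa using hp, fun y hy => hmax (by simpa using hy)⟩

theorem IsTop.homog {a : ℕ → ℝ} {p : E4} (h : IsTop a p) (y : E4) :
    |Bf a y y| ≤ |Bf a p p| * inner ℝ y y := by
  by_cases hy : y = 0
  · subst hy; simp [Bf]
  · have hn : 0 < ‖y‖ := norm_pos_iff.2 hy
    have := h.2 ((‖y‖⁻¹) • y) (by rw [norm_smul, norm_inv, norm_norm, inv_mul_cancel₀ hn.ne'])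
    rw [Bf_smul, abs_mul, abs_of_nonneg (sq_nonneg _), inv_pow, inv_mul_le_iff₀ (by positivity)]
      at this
    rw [real_inner_self_eq_norm_sq, mul_comm]
    exact this

theorem IsTop.eigen {a : ℕ → ℝ} {p : E4} (h : IsTop a p) (h0 : Bf a p p ≠ 0) (y : E4) :
    Bf a p y = Bf a p p * inner ℝ p y := by
  set μ := Bf a p p with hμ
  have hpp : inner ℝ p p = (1 : ℝ) := by rw [real_inner_self_eq_norm_sq, h.1]; norm_num
  have key : ∀ s : ℝ, 0 ≤ (μ ^ 2 * inner ℝ y y - μ * Bf a y y) * (s * s) +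
      (2 * μ * (μ * inner ℝ p y - Bf a p y)) * s + 0 := by
    intro s
    have h1 := h.homog (p + s • y)
    have h2 : μ * Bf a (p + s • y) (p + s • y) ≤ μ ^ 2 * inner ℝ (p + s • y) (p + s • y) := by
      calc μ * Bf a (p + s • y) (p + s • y) ≤ |μ * Bf a (p + s • y) (p + s • y)| := le_abs_self _
        _ = |μ| * |Bf a (p + s • y) (p + s • y)| := abs_mul _ _
        _ ≤ |μ| * (|μ| * inner ℝ (p + s • y) (p + s • y)) := by gcongr
        _ = μ ^ 2 * inner ℝ (p + s • y) (p + s • y) := by rw [← mul_assoc, abs_mul_abs_self]; ring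
    have e : inner ℝ (p + s • y) (p + s • y) = 1 + 2 * s * inner ℝ p y + s ^ 2 * inner ℝ y y := by
      rw [← hpp]
      simp only [inner_E4, PiLp.add_apply, PiLp.smul_apply, smul_eq_mul]; ring
    rw [Bf_expand, e, ← hμ] at h2
    nlinarith
  have hd := discrim_le_zero key
  simp only [discrim, mul_zero, sub_zero] at hd
  have : 2 * μ * (μ * inner ℝ p y - Bf a p y) = 0 := by
    exact pow_eq_zero_iff (two_ne_zero) |>.1 (le_antisymm hd (sq_nonneg _))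
  rcases mul_eq_zero.1 this with h1 | h1
  · exact absurd (by linarith) h0
  · linarith

theorem IsTop.lower {a : ℕ → ℝ} {p : E4} (h : IsTop a p)
    (ha : ∑ i ∈ Finset.range (9 + 1), |a i| = 1) : 1 / 16 ≤ |Bf a p p| := by
  set m := |Bf a p p|
  have h0 := h.homog !₂[1, 0, 0, 0]
  have h1 := h.homog !₂[0, 1, 0, 0]
  have h2 := h.homog !₂[0, 0, 1, 0]
  have h3 := h.homog !₂[0, 0, 0, 1]
  have h4 := h.homog !₂[1, 1, 0, 0]
  have h5 := h.homog !₂[1, 0, 1, 0]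
  have h6 := h.homog !₂[1, 0, 0, 1]
  have h7 := h.homog !₂[0, 1, 1, 0]
  have h8 := h.homog !₂[0, 1, 0, 1]
  have h9 := h.homog !₂[0, 0, 1, 1]
  rw [inner_E4] at h0 h1 h2 h3 h4 h5 h6 h7 h8 h9
  change |Bf a _ _| ≤ m * _ at h0 h1 h2 h3 h4 h5 h6 h7 h8 h9
  clear_value m
  simp [Bf] at h0 h1 h2 h3 h4 h5 h6 h7 h8 h9
  simp only [Finset.sum_range_succ, Finset.range_zero, Finset.sum_empty] at ha
  rw [abs_le] at h0 h1 h2 h3 h4 h5 h6 h7 h8 h9
  have g0 : |a 0| ≤ m := abs_le.2 h0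
  have g1 : |a 1| ≤ m := abs_le.2 h1
  have g2 : |a 2| ≤ m := abs_le.2 h2
  have g3 : |a 3| ≤ m := abs_le.2 h3
  have g4 : |a 4| ≤ 2 * m := abs_le.2 ⟨by linarith [h4.1, h0.2, h1.2], by linarith [h4.2, h0.1, h1.1]⟩
  have g5 : |a 5| ≤ 2 * m := abs_le.2 ⟨by linarith [h5.1, h0.2, h2.2], by linarith [h5.2, h0.1, h2.1]⟩
  have g6 : |a 6| ≤ 2 * m := abs_le.2 ⟨by linarith [h6.1, h0.2, h3.2], by linarith [h6.2, h0.1, h3.1]⟩
  have g7 : |a 7| ≤ 2 * m := abs_le.2 ⟨by linarith [h7.1, h1.2, h2.2], by linarith [h7.2, h1.1, h2.1]⟩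
  have g8 : |a 8| ≤ 2 * m := abs_le.2 ⟨by linarith [h8.1, h1.2, h3.2], by linarith [h8.2, h1.1, h3.1]⟩
  have g9 : |a 9| ≤ 2 * m := abs_le.2 ⟨by linarith [h9.1, h2.2, h3.2], by linarith [h9.2, h2.1, h3.1]⟩
  linarith

theorem coord_le {x : E4} (hx : ‖x‖ = 1) (i : Fin 4) : |x i| ≤ 1 := by
  rw [← hx]
  exact PiLp.norm_apply_le x i

theorem Bf_diff {a a' : ℕ → ℝ} {ε : ℝ} (h : ∀ i, |a i - a' i| ≤ ε) {x y : E4} (hx : ‖x‖ = 1)
    (hy : ‖y‖ = 1) : |Bf a x y - Bf a' x y| ≤ 16 * ε := by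
  have t : ∀ k (i j : Fin 4), |(a k - a' k) * (x i * y j)| ≤ ε := by
    intro k i j
    rw [abs_mul, abs_mul]
    have h1 := coord_le hx i
    have h2 := coord_le hy j
    have h3 : |x i| * |y j| ≤ 1 := by nlinarith [abs_nonneg (x i), abs_nonneg (y j)]
    have h4 := h k
    nlinarith [abs_nonneg (a k - a' k), mul_nonneg (abs_nonneg (x i)) (abs_nonneg (y j))]
  have t' := fun k i j => abs_le.1 (t k i j)
  have e : Bf a x y - Bf a' x y =
      (a 0 - a' 0) * (x 0 * y 0) + (a 1 - a' 1) * (x 1 * y 1) + (a 2 - a' 2) * (x 2 * y 2) +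
      (a 3 - a' 3) * (x 3 * y 3) + (a 4 - a' 4) * (x 0 * y 1) + (a 4 - a' 4) * (x 1 * y 0) +
      (a 5 - a' 5) * (x 0 * y 2) + (a 5 - a' 5) * (x 2 * y 0) + (a 6 - a' 6) * (x 0 * y 3) +
      (a 6 - a' 6) * (x 3 * y 0) + (a 7 - a' 7) * (x 1 * y 2) + (a 7 - a' 7) * (x 2 * y 1) +
      (a 8 - a' 8) * (x 1 * y 3) + (a 8 - a' 8) * (x 3 * y 1) + (a 9 - a' 9) * (x 2 * y 3) +
      (a 9 - a' 9) * (x 3 * y 2) := by
    simp only [Bf]; ring
  rw [e, abs_le]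
  constructor <;>
    linarith [t' 0 0 0, t' 1 1 1, t' 2 2 2, t' 3 3 3, t' 4 0 1, t' 4 1 0, t' 5 0 2, t' 5 2 0,
      t' 6 0 3, t' 6 3 0, t' 7 1 2, t' 7 2 1, t' 8 1 3, t' 8 3 1, t' 9 2 3, t' 9 3 2]

theorem near_orth {a a' : ℕ → ℝ} {ε : ℝ} (h : ∀ i, |a i - a' i| ≤ ε) {p n : E4}
    (hp : IsTop a p) (hn : IsTop a' n) (ha : ∑ i ∈ Finset.range (9 + 1), |a i| = 1)
    (ha' : ∑ i ∈ Finset.range (9 + 1), |a' i| = 1) (h1 : ¬ Bf a p p < 0) (h2 : Bf a' n n < 0) :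
    |inner ℝ p n| ≤ 128 * ε := by
  have l1 := hp.lower ha
  have l2 := hn.lower ha'
  rw [abs_of_nonneg (not_lt.1 h1)] at l1
  rw [abs_of_neg h2] at l2
  have e1 := hp.eigen (by linarith) n
  have e2 := hn.eigen h2.ne p
  have d := Bf_diff h hp.1 hn.1
  rw [Bf_symm a' p n, e1, e2, real_inner_comm p n, ← sub_mul, abs_mul,
    abs_of_nonneg (by linarith)] at d
  nlinarith [abs_nonneg (inner ℝ p n)]

/-- a chosen top eigenvector -/
noncomputable def top (a : ℕ → ℝ) : E4 := Classical.epsilon (IsTop a)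

theorem top_spec (a : ℕ → ℝ) : IsTop a (top a) := Classical.epsilon_spec (exists_isTop a)

theorem top_neg (a : ℕ → ℝ) : top (-a) = top a := by
  unfold top
  congr 1
  funext p
  simp only [IsTop, Bf_neg, abs_neg]

/-- signed unit vectors, opposite signs almost orthogonal -/
def Adm1 (ε : ℝ) (M : Multiset (E4 × F)) : Prop :=
  (∀ a ∈ M, ‖a.1‖ = 1) ∧ ∀ a ∈ M, ∀ b ∈ M, a.2 ≠ b.2 → |inner ℝ a.1 b.1| ≤ ε

theorem exists_KF1 {ε : ℝ} (hε : 0 < ε) : Nonempty (KF flip (Adm1 ε) 9) := by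
  obtain ⟨K⟩ := exists_KF 9 (ε := ε / 128) (by positivity)
  refine ⟨K.push flip (Adm1 ε)
    (fun a => (top a, if Bf a (top a) (top a) < 0 then 1 else 0)) ?_ ?_⟩
  · intro M hM a ha
    have l := (top_spec a).lower (hM.1 a ha)
    simp only [flip, top_neg, Bf_neg]
    congr 1
    by_cases h : Bf a (top a) (top a) < 0
    · rw [if_pos h, if_neg (by linarith)]; rfl
    · rw [if_neg h, if_pos]
      · rfl
      · rw [abs_of_nonneg (not_lt.1 h)] at l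
        linarith
  · intro M hM
    constructor
    · intro a ha
      obtain ⟨a', _, rfl⟩ := Multiset.mem_map.1 ha
      exact (top_spec a').1
    · intro a ha b hb hab
      obtain ⟨a', ha', rfl⟩ := Multiset.mem_map.1 ha
      obtain ⟨b', hb', rfl⟩ := Multiset.mem_map.1 hb
      simp only at hab ⊢
      have e : ε = 128 * (ε / 128) := by ring
      rw [e]
      by_cases h1 : Bf a' (top a') (top a') < 0 <;> by_cases h2 : Bf b' (top b') (top b') < 0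
      · simp [h1, h2] at hab
      · rw [real_inner_comm]
        exact near_orth (hM.2 b' hb' a' ha') (top_spec _) (top_spec _) (hM.1 b' hb')
          (hM.1 a' ha') h2 h1
      · exact near_orth (hM.2 a' ha' b' hb') (top_spec _) (top_spec _) (hM.1 a' ha')
          (hM.1 b' hb') h1 h2
      · simp [h1, h2] at hab

end Vale.Agent.P052
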