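import Vale.Agent.P052.Chains

/-! Multiset cochains and systems of functionals coming from odd cycles. -/

namespace Vale.Agent.P052

open Classical in
/-- coboundary of a cochain on multisets -/
noncomputable def dM {α : Type*} (G : Multiset α → F) (M : Multiset α) : F :=
  (M.map (fun v => G (M.erase v))).sum

theorem dM_eq {α : Type*} [inst : DecidableEq α] (G : Multiset α → F) (M : Multiset α) :
    dM G M = (M.map (fun v => G (M.erase v))).sum := by
  have : inst = fun a b => Classical.propDecidable (a = b) := Subsingleton.elim _ _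
  subst this
  rfl

theorem dM_nil {α : Type*} (G : Multiset α → F) : dM G 0 = 0 := by simp [dM]

theorem dM_cons {α : Type*} (G : Multiset α → F) (a : α) (M : Multiset α) :
    dM G (a ::ₘ M) = G M + dM (fun N => G (a ::ₘ N)) M := by
  classical
  rw [dM_eq, dM_eq, Multiset.map_cons, Multiset.sum_cons, Multiset.erase_cons_head]
  congr 2
  apply Multiset.map_congr rfl
  intro v hv
  congr 1
  by_cases h : a = v
  · subst h
    rw [Multiset.erase_cons_head, Multiset.cons_erase hv]
  · rw [Multiset.erase_cons_tail _ h]

theorem dM_coe {α : Type*} (G : Multiset α → F) (l : List α) :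
    dL (fun l' => G (l' : Multiset α)) l = dM G (l : Multiset α) := by
  induction l generalizing G with
  | nil => simp [dL, dM_nil]
  | cons v l ih =>
    simp only [dL]
    rw [← Multiset.cons_coe, dM_cons, ← ih]
    rfl

theorem dM_add {α : Type*} (G H : Multiset α → F) (M : Multiset α) :
    dM (fun x => G x + H x) M = dM G M + dM H M := by
  simp [dM, Multiset.sum_map_add]

theorem dM_mul {α : Type*} (c : F) (G : Multiset α → F) (M : Multiset α) :
    dM (fun x => c * G x) M = c * dM G M := by
  simp [dM, Multiset.sum_map_mul_left]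

theorem dM_map {α β : Type*} (f : α → β) (G : Multiset β → F) (M : Multiset α) :
    dM (fun x => G (x.map f)) M = dM G (M.map f) := by
  induction M using Multiset.induction_on generalizing G with
  | empty => simp [dM_nil]
  | cons v M ih =>
    rw [Multiset.map_cons, dM_cons, dM_cons, ← ih (fun l' => G (f v ::ₘ l'))]
    simp

theorem dM_dM {α : Type*} (G : Multiset α → F) (M : Multiset α) : dM (dM G) M = 0 := by
  induction M using Multiset.induction_on generalizing G with
  | empty => simp [dM_nil]
  | cons v M ih =>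
    rw [dM_cons]
    have : (fun N => dM G (v ::ₘ N)) = fun N => G N + dM (fun N' => G (v ::ₘ N')) N := by
      funext N; rw [dM_cons]
    rw [this, dM_add, ih, add_zero, F_add_self]

theorem dM_congr {α : Type*} [DecidableEq α] {G H : Multiset α → F} {M : Multiset α}
    (h : ∀ v ∈ M, G (M.erase v) = H (M.erase v)) : dM G M = dM H M := by
  rw [dM_eq, dM_eq]
  congr 1
  exact Multiset.map_congr rfl h

theorem dM_eq_zero {α : Type*} [DecidableEq α] {G : Multiset α → F} {M : Multiset α}
    (h : ∀ v ∈ M, G (M.erase v) = 0) : dM G M = 0 := by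
  rw [dM_eq]
  apply Multiset.sum_eq_zero
  intro x hx
  obtain ⟨v, hv, rfl⟩ := Multiset.mem_map.1 hx
  exact h v hv

theorem dM_const {α : Type*} (c : F) (M : Multiset α) :
    dM (fun _ => c) M = (Multiset.card M : F) * c := by
  simp [dM]

/-- coboundary of a cochain vanishing on multisets with repeats again vanishes there -/
theorem dM_not_nodup {α : Type*} {G : Multiset α → F} {M : Multiset α}
    (hG : ∀ N, N ≤ M → ¬ N.Nodup → G N = 0) (hM : ¬ M.Nodup) : dM G M = 0 := by
  classical
  obtain ⟨a, ha⟩ : ∃ a, a ::ₘ a ::ₘ 0 ≤ M := by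
    by_contra hcon
    push Not at hcon
    exact hM (Multiset.nodup_iff_le.2 hcon)
  obtain ⟨N, rfl⟩ := Multiset.le_iff_exists_add.1 ha
  have e : a ::ₘ a ::ₘ 0 + N = a ::ₘ a ::ₘ N := by simp
  rw [e] at hG ⊢
  rw [dM_cons, dM_cons]
  have : dM (fun N' => G (a ::ₘ a ::ₘ N')) N = 0 := by
    apply dM_eq_zero
    intro v _
    apply hG
    · exact Multiset.cons_le_cons _ (Multiset.cons_le_cons _ (Multiset.erase_le _ _))
    · simp
  rw [this, add_zero, F_add_self]

theorem dM_indicator {α : Type*} [Fintype α] [DecidableEq α] {R : Multiset α} (hR : R.Nodup)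
    (M : Multiset α) :
    dM (fun N => if N = R then 1 else 0) M =
      ∑ a ∈ Finset.univ.filter (fun a => a ∉ R), if M = a ::ₘ R then 1 else 0 := by
  by_cases h : ∃ a, M = a ::ₘ R
  · obtain ⟨a, rfl⟩ := h
    by_cases ha : a ∈ R
    · rw [dM_not_nodup, Finset.sum_eq_zero]
      · intro b hb
        rw [if_neg]
        intro hab
        have : a = b := (Multiset.cons_inj_left R).1 hab
        subst this
        exact (Finset.mem_filter.1 hb).2 ha
      · intro N _ hN
        rw [if_neg]
        rintro rfl
        exact hN hR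
      · simp [ha]
    · rw [dM_cons, if_pos rfl, dM_eq_zero, add_zero, Finset.sum_eq_single a, if_pos rfl]
      · intro b _ hba
        rw [if_neg]
        intro hab
        exact hba ((Multiset.cons_inj_left R).1 hab).symm
      · intro h; simp [ha] at h
      · intro v _
        rw [if_neg]
        intro h
        apply ha
        rw [← h]
        simp
  · push Not at h
    rw [dM_eq_zero, Finset.sum_eq_zero]
    · intro a _
      rw [if_neg (h a)]
    · intro v hv
      rw [if_neg]
      intro h'
      apply h v
      rw [← h', Multiset.cons_erase hv]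

/-- A system of functionals given by integration over the hemispheres of a fine odd cycle. -/
structure KF {Y : Type*} (ν : Y → Y) (Adm : Multiset Y → Prop) (n : ℕ) where
  I : ℕ → (Multiset Y → F) →+ F
  one : I 0 (fun _ => 1) = 1
  bd : ∀ k < n, ∀ G, I (k + 1) (dM G) = I k (fun M => G M + G (M.map ν))
  supp : ∀ k ≤ n, ∀ G, (∀ M, Adm M → Multiset.card M = k + 1 → G M = 0) → I k G = 0

theorem KF.congr {Y : Type*} {ν : Y → Y} {Adm : Multiset Y → Prop} {n : ℕ} (K : KF ν Adm n)
    {k : ℕ} (hk : k ≤ n) {G H : Multiset Y → F}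
    (h : ∀ M, Adm M → Multiset.card M = k + 1 → G M = H M) : K.I k G = K.I k H := by
  have : K.I k (G - H) = 0 := by
    apply K.supp k hk
    intro M h1 h2
    simp [h M h1 h2]
  rw [map_sub] at this
  exact sub_eq_zero.1 this

/-- push forward along an equivariant map -/
noncomputable def KF.push {Y Y' : Type*} {ν : Y → Y} {Adm : Multiset Y → Prop} {n : ℕ}
    (K : KF ν Adm n) (ν' : Y' → Y') (Adm' : Multiset Y' → Prop) (f : Y → Y')
    (hν : ∀ M, Adm M → ∀ y ∈ M, f (ν y) = ν' (f y)) (hA : ∀ M, Adm M → Adm' (M.map f)) :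
    KF ν' Adm' n where
  I k := AddMonoidHom.mk' (fun G => K.I k (fun M => G (M.map f))) (by
    intro G H
    rw [← map_add]
    rfl)
  one := K.one
  bd k hk G := by
    show K.I (k + 1) (fun M => dM G (M.map f)) =
      K.I k (fun M => G (M.map f) + G ((M.map f).map ν'))
    have : (fun M : Multiset Y => dM G (M.map f)) = dM (fun M => G (M.map f)) := by
      funext M; rw [dM_map]
    rw [this, K.bd k hk]
    apply K.congr hk.le
    intro M hM _
    congr 2
    rw [Multiset.map_map, Multiset.map_map]
    exact Multiset.map_congr rfl (hν M hM)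
  supp k hk G h := by
    apply K.supp k hk
    intro M hM hc
    exact h _ (hA M hM) (by simpa using hc)

/-- integration over the full top cycle -/
noncomputable def KF.J {Y : Type*} {ν : Y → Y} {Adm : Multiset Y → Prop} {n : ℕ}
    (K : KF ν Adm n) : (Multiset Y → F) →+ F :=
  AddMonoidHom.mk' (fun G => K.I n (fun M => G M + G (M.map ν))) (by
    intro G H
    rw [← map_add]
    congr 1
    funext M
    simp only [Pi.add_apply]; ring)

theorem KF.J_apply {Y : Type*} {ν : Y → Y} {Adm : Multiset Y → Prop} {n : ℕ}
    (K : KF ν Adm n) (G : Multiset Y → F) : K.J G = K.I n (fun M => G M + G (M.map ν)) := rfl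

theorem KF.J_d {Y : Type*} {ν : Y → Y} {Adm : Multiset Y → Prop} {n : ℕ}
    (K : KF ν Adm (n + 1)) (hν : ∀ y, ν (ν y) = y) (G : Multiset Y → F) : K.J (dM G) = 0 := by
  rw [K.J_apply]
  have : (fun M => dM G M + dM G (M.map ν)) = dM (fun M => G M + G (M.map ν)) := by
    funext M
    rw [dM_add, dM_map]
  rw [this, K.bd n (by omega)]
  have : (fun M : Multiset Y => G M + G (M.map ν) + (G (M.map ν) + G ((M.map ν).map ν))) = 0 := by
    funext M
    have e : (M.map ν).map ν = M := by
      rw [Multiset.map_map]
      conv_rhs => rw [← Multiset.map_id M]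
      exact Multiset.map_congr rfl (fun y _ => hν y)
    rw [e]
    have h1 := F_add_self (G M)
    have h2 := F_add_self (G (M.map ν))
    simp only [Pi.zero_apply]
    linear_combination h1 + h2
  rw [this, map_zero]

theorem KF.J_congr {Y : Type*} {ν : Y → Y} {Adm : Multiset Y → Prop} {n : ℕ}
    (K : KF ν Adm n) (hA : ∀ M, Adm M → Adm (M.map ν)) {G H : Multiset Y → F}
    (h : ∀ M, Adm M → Multiset.card M = n + 1 → G M = H M) : K.J G = K.J H := by
  rw [K.J_apply, K.J_apply]
  apply K.congr le_rfl
  intro M h1 h2
  rw [h M h1 h2, h _ (hA M h1) (by simpa using h2)]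

/-- small multisets on the l1 sphere -/
def AdmB (n : ℕ) (ε : ℝ) (M : Multiset (ℕ → ℝ)) : Prop :=
  (∀ x ∈ M, ∑ i ∈ Finset.range (n + 1), |x i| = 1) ∧ ∀ x ∈ M, ∀ y ∈ M, ∀ i, |x i - y i| ≤ ε

theorem exists_KF (n : ℕ) {ε : ℝ} (hε : 0 < ε) : Nonempty (KF Neg.neg (AdmB n ε) n) := by
  obtain ⟨I, h0, hb, hs⟩ := exists_oddL n ε hε
  refine ⟨⟨fun k => AddMonoidHom.mk' (fun G => I k (fun l => G (l : Multiset (ℕ → ℝ)))) ?_,
    h0, ?_, ?_⟩⟩
  · intro G H
    rw [← map_add]
    rfl
  · intro k hk G
    show I (k + 1) (fun l => dM G (l : Multiset (ℕ → ℝ))) = _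
    have : (fun l : List (ℕ → ℝ) => dM G (l : Multiset (ℕ → ℝ))) =
        dL (fun l => G (l : Multiset (ℕ → ℝ))) := by
      funext l; rw [dM_coe]
    rw [this, hb k hk]
    rfl
  · intro k hk G h
    apply hs k hk
    intro l hl
    apply h
    · refine ⟨?_, ?_⟩
      · intro x hx
        have := hl.2.1 x (by simpa using hx)
        rw [← this.1]
        symm
        apply Finset.sum_subset
        · intro i hi
          have := Finset.mem_range.1 hi
          exact Finset.mem_range.2 (by omega)
        · intro i _ hi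
          have hi' : ¬ i < k + 1 := fun h => hi (Finset.mem_range.2 h)
          simp [this.2 i (by omega)]
      · intro x hx y hy
        exact hl.2.2 x (by simpa using hx) y (by simpa using hy)
    · simpa using hl.1

end Vale.Agent.P052
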