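import Vale.Agent.P052.Stage2

/-! Counting identities for signed coloured points along an odd nine-cycle. -/

namespace Vale.Agent.P052

/-- no complementary labels -/
def Adm0 (M : Multiset (C10 × F)) : Prop := ∀ a ∈ M, ∀ b ∈ M, a.1 = b.1 → a = b

theorem admOK_0 : AdmOK Adm0 where
  sub M N h hM a ha b hb := hM a (Multiset.mem_of_le h ha) b (Multiset.mem_of_le h hb)
  neg M hM a ha b hb h := by
    obtain ⟨a', ha', rfl⟩ := Multiset.mem_map.1 ha
    obtain ⟨b', hb', rfl⟩ := Multiset.mem_map.1 hb
    rw [hM a' ha' b' hb' h]
  fn M hM := hM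

/-- the facet of the cross-polytope with signs `φ` -/
def facet (φ : C10 → F) : Multiset (C10 × F) := Finset.univ.val.map (fun i => (i, φ i))

theorem facet_eq (φ : C10 → F) (k : C10) :
    facet φ = (k, φ k) ::ₘ (Finset.univ.erase k).val.map (fun i => (i, φ i)) := by
  have : (Finset.univ : Finset C10).val = k ::ₘ (Finset.univ.erase k).val := by
    rw [Finset.erase_val, Multiset.cons_erase (by simp)]
  rw [facet, this, Multiset.map_cons]

theorem facet_flip (K : KF flip Adm0 9) (φ ψ : C10 → F) (k : C10) (h : ∀ i, i ≠ k → φ i = ψ i) :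
    K.J (fun M => if M = facet φ then 1 else 0) = K.J (fun M => if M = facet ψ then 1 else 0) := by
  have e : (Finset.univ.erase k).val.map (fun i => (i, ψ i)) =
      (Finset.univ.erase k).val.map (fun i => (i, φ i)) := by
    apply Multiset.map_congr rfl
    intro i hi
    rw [h i (Finset.mem_erase.1 (Finset.mem_def.2 hi)).1]
  rw [facet_eq φ k, facet_eq ψ k, e]
  set R := (Finset.univ.erase k).val.map (fun i => (i, φ i)) with hR
  have hn : R.Nodup := (Finset.univ.erase k).nodup.map (fun a b h => (Prod.ext_iff.1 h).1)
  have hk : ∀ s, (k, s) ∉ R := by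
    intro s hs
    obtain ⟨i, hi, h⟩ := Multiset.mem_map.1 hs
    exact (Finset.mem_erase.1 (Finset.mem_def.2 hi)).1 (Prod.ext_iff.1 h).1
  have hd := door (n := 8) K flip_flip hn
  rw [Finset.sum_eq_add_of_mem (k, 0) (k, 1) (by simp [hk]) (by simp [hk]) (by simp)] at hd
  · have h01 : K.J (fun M => if M = (k, 0) ::ₘ R then 1 else 0) =
        K.J (fun M => if M = (k, 1) ::ₘ R then 1 else 0) := by
      have := F_add_self (K.J (fun M => if M = (k, 1) ::ₘ R then 1 else 0))
      linear_combination hd - this
    rcases F_cases (φ k) with h1 | h1 <;> rcases F_cases (ψ k) with h2 | h2 <;> rw [h1, h2]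
    · exact h01
    · exact h01.symm
  · intro a ha hne
    by_contra hJ
    have hA := adm_of_J admOK_0 K hJ
    have ha' : a ∉ R := (Finset.mem_filter.1 ha).2
    by_cases hak : a.1 = k
    · obtain ⟨a1, a2⟩ := a
      obtain rfl : a1 = k := hak
      rcases F_cases a2 with rfl | rfl
      · exact hne.1 rfl
      · exact hne.2 rfl
    · have hm : (a.1, φ a.1) ∈ R :=
        Multiset.mem_map.2 ⟨a.1, Finset.mem_erase.2 ⟨hak, Finset.mem_univ _⟩, rfl⟩
      have := hA a (by simp) _ (Multiset.mem_cons_of_mem hm) rfl
      rw [this] at ha'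
      exact ha' hm

theorem facet_all (K : KF flip Adm0 9) (φ ψ : C10 → F) :
    K.J (fun M => if M = facet φ then 1 else 0) = K.J (fun M => if M = facet ψ then 1 else 0) := by
  have : ∀ S : Finset C10, ∀ φ : C10 → F, (∀ i, i ∉ S → φ i = ψ i) →
      K.J (fun M => if M = facet φ then 1 else 0) =
        K.J (fun M => if M = facet ψ then 1 else 0) := by
    intro S
    induction S using Finset.induction_on with
    | empty =>
      intro φ h
      rw [show φ = ψ from funext fun i => h i (by simp)]
    | insert k S _ ih =>
      intro φ h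
      rw [facet_flip K φ (Function.update φ k (ψ k)) k
        (fun i hi => by rw [Function.update_of_ne hi])]
      apply ih
      intro i hi
      by_cases hik : i = k
      · subst hik; simp
      · rw [Function.update_of_ne hik]
        exact h i (by simp [hik, hi])
  exact this Finset.univ φ (by simp)

theorem facet_one (K : KF flip Adm0 9) (ψ : C10 → F) :
    K.J (fun M => if M = facet ψ then 1 else 0) = 1 := by
  obtain ⟨R, hn, hA, hc, hJ⟩ := exists_top admOK_0 K
  have hn' : (R.map Prod.fst).Nodup :=
    hn.map_on (fun a ha b hb h => hA a ha b hb h)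
  have hu : (⟨R.map Prod.fst, hn'⟩ : Finset C10) = Finset.univ := by
    apply Finset.eq_univ_of_card
    simp [hc]
  let φ : C10 → F := fun i => if (i, (0 : F)) ∈ R then 0 else 1
  have : R = facet φ := by
    rw [facet, ← hu, Multiset.map_map]
    conv_lhs => rw [← Multiset.map_id R]
    apply Multiset.map_congr rfl
    rintro ⟨i, s⟩ ha
    simp only [id, Function.comp, φ]
    rcases F_cases s with rfl | rfl
    · rw [if_pos ha]
    · rw [if_neg]
      intro h
      have := hA _ h _ ha rfl
      simp at this
  rw [facet_all K ψ φ, ← this, hJ]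

variable {P : Type*}

/-- positively signed points -/
def pos (M : Multiset (P × F)) : Multiset P := (M.filter (fun a => a.2 = 0)).map Prod.fst

/-- negatively signed points -/
def neg (M : Multiset (P × F)) : Multiset P := (M.filter (fun a => a.2 = 1)).map Prod.fst

theorem pos_cons0 (p : P) (M : Multiset (P × F)) : pos ((p, 0) ::ₘ M) = p ::ₘ pos M := by
  simp [pos]

theorem pos_cons1 (p : P) (M : Multiset (P × F)) : pos ((p, 1) ::ₘ M) = pos M := by
  simp [pos]

theorem neg_cons0 (p : P) (M : Multiset (P × F)) : neg ((p, 0) ::ₘ M) = neg M := by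
  simp [neg]

theorem neg_cons1 (p : P) (M : Multiset (P × F)) : neg ((p, 1) ::ₘ M) = p ::ₘ neg M := by
  simp [neg]

theorem mem_pos {p : P} {M : Multiset (P × F)} : p ∈ pos M ↔ (p, 0) ∈ M := by
  simp [pos]

theorem mem_neg {p : P} {M : Multiset (P × F)} : p ∈ neg M ↔ (p, 1) ∈ M := by
  simp [neg]

theorem card_pos_neg (M : Multiset (P × F)) :
    Multiset.card (pos M) + Multiset.card (neg M) = Multiset.card M := by
  induction M using Multiset.induction_on with
  | empty => simp [pos, neg]
  | cons a M ih =>
    obtain ⟨p, s⟩ := a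
    rcases F_cases s with rfl | rfl
    · rw [pos_cons0, neg_cons0]; simp only [Multiset.card_cons]; omega
    · rw [pos_cons1, neg_cons1]; simp only [Multiset.card_cons]; omega

theorem eq_pos_add_neg (M : Multiset (P × F)) :
    M = (pos M).map (fun p => (p, 0)) + (neg M).map (fun p => (p, 1)) := by
  induction M using Multiset.induction_on with
  | empty => simp [pos, neg]
  | cons a M ih =>
    obtain ⟨p, s⟩ := a
    rcases F_cases s with rfl | rfl
    · rw [pos_cons0, neg_cons0, Multiset.map_cons, Multiset.cons_add, ← ih]
    · rw [pos_cons1, neg_cons1, Multiset.map_cons, Multiset.add_cons, ← ih]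

theorem dM_prod (A B : Multiset P → F) (M : Multiset (P × F)) :
    dM (fun N => A (neg N) * B (pos N)) M =
      dM A (neg M) * B (pos M) + A (neg M) * dM B (pos M) := by
  induction M using Multiset.induction_on generalizing A B with
  | empty => simp [pos, neg, dM_nil]
  | cons a M ih =>
    obtain ⟨p, s⟩ := a
    rcases F_cases s with rfl | rfl
    · rw [dM_cons]
      simp only [pos_cons0, neg_cons0]
      rw [ih A (fun N => B (p ::ₘ N)), dM_cons]
      ring
    · rw [dM_cons]
      simp only [pos_cons1, neg_cons1]
      rw [ih (fun N => A (p ::ₘ N)) B, dM_cons]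
      ring

/-- the data of the first stage -/
structure St1 (c : P → C10) (Adm : Multiset (P × F) → Prop) : Prop where
  neg : ∀ M, Adm M → Adm (M.map flip)
  comp : ∀ M, Adm M → ∀ a ∈ M, ∀ b ∈ M, c a.1 = c b.1 → a.2 = b.2

variable {c : P → C10} {Adm : Multiset (P × F) → Prop}

/-- weighted count of top simplices with prescribed negative colours -/
noncomputable def wt (K : KF flip Adm 9) (c : P → C10) (T : Finset C10) (φ : P → F) : F :=
  K.J (fun M => (if (neg M).map c = T.val then 1 else 0) * ((pos M).map φ).sum)

theorem St1.pos_col (h : St1 c Adm) {M : Multiset (P × F)} (hM : Adm M) {T : Finset C10}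
    (hT : (Vale.Agent.P052.neg M).map c = T.val) {p : P} (hp : p ∈ pos M) : c p ∉ T := by
  intro hc
  have : c p ∈ (Vale.Agent.P052.neg M).map c := by rw [hT]; exact hc
  obtain ⟨q, hq, hqp⟩ := Multiset.mem_map.1 this
  have := h.comp M hM _ (mem_neg.1 hq) _ (mem_pos.1 hp) hqp
  simp at this

theorem wt_congr (h : St1 c Adm) (K : KF flip Adm 9) (T : Finset C10) {φ ψ : P → F}
    (hφ : ∀ M, Adm M → Multiset.card M = 10 → (neg M).map c = T.val →
      ((pos M).map φ).sum = ((pos M).map ψ).sum) : wt K c T φ = wt K c T ψ := by
  apply K.J_congr h.neg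
  intro M hM hc
  split_ifs with hT
  · rw [hφ M hM hc hT]
  · simp

theorem wt_add (K : KF flip Adm 9) (T : Finset C10) (φ ψ : P → F) :
    wt K c T (fun p => φ p + ψ p) = wt K c T φ + wt K c T ψ := by
  simp only [wt]
  rw [← map_add]
  congr 1
  funext M
  simp only [Pi.add_apply, Multiset.sum_map_add]
  ring

theorem wt_one (h : St1 c Adm) (K : KF flip Adm 9) (i : C10) :
    wt K c (Finset.univ.erase i) (fun _ => 1) = 1 := by
  let lab : P × F → C10 × F := fun a => (c a.1, a.2)
  let K0 : KF flip Adm0 9 := K.push flip Adm0 lab (fun _ _ _ _ => rfl) (by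
    intro M hM a ha b hb hab
    obtain ⟨a', ha', rfl⟩ := Multiset.mem_map.1 ha
    obtain ⟨b', hb', rfl⟩ := Multiset.mem_map.1 hb
    exact Prod.ext hab (h.comp M hM a' ha' b' hb' hab))
  let ψ : C10 → F := fun k => if k = i then 0 else 1
  have h1 := facet_one K0 ψ
  have h2 : K0.J (fun M => if M = facet ψ then 1 else 0) =
      K.J (fun M => if M.map lab = facet ψ then 1 else 0) := by
    rw [KF.J_apply, KF.J_apply]
    show K.I 9 _ = K.I 9 _
    congr 1
    funext M
    simp only [Multiset.map_map]
    rfl
  have hf : facet ψ = (i, 0) ::ₘ (Finset.univ.erase i).val.map (fun k => (k, 1)) := by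
    rw [facet_eq ψ i]
    congr 1
    · simp [ψ]
    · apply Multiset.map_congr rfl
      intro k hk
      simp [ψ, (Finset.mem_erase.1 (Finset.mem_def.2 hk)).1]
  refine Eq.trans ?_ (h2.symm.trans h1)
  apply K.J_congr h.neg
  intro M hM hc
  have hlab : M.map lab = ((pos M).map c).map (fun k => (k, 0)) +
      ((neg M).map c).map (fun k => (k, 1)) := by
    conv_lhs => rw [eq_pos_add_neg M]
    simp only [Multiset.map_add, Multiset.map_map]
    rfl
  by_cases hT : (neg M).map c = (Finset.univ.erase i).val
  · have hcn : Multiset.card (neg M) = 9 := by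
      have := congrArg Multiset.card hT
      rw [Multiset.card_map] at this
      rw [this, Finset.card_val, Finset.card_erase_of_mem (Finset.mem_univ _)]
      rfl
    have hcp : Multiset.card (pos M) = 1 := by
      have := card_pos_neg M
      omega
    obtain ⟨p, hp⟩ := Multiset.card_eq_one.1 hcp
    have hpi : c p = i := by
      have := h.pos_col hM hT (p := p) (by rw [hp]; simp)
      simpa using this
    rw [if_pos hT, if_pos, hp]
    · simp
    · rw [hlab, hf, hT, hp]
      simp [hpi]
  · rw [if_neg hT, if_neg, zero_mul]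
    intro he
    apply hT
    have e1 : neg (M.map lab) = (neg M).map c := by
      simp only [neg, Multiset.filter_map, Multiset.map_map]
      rfl
    rw [← e1, he, hf, neg_cons0]
    simp only [neg]
    rw [Multiset.filter_eq_self.2 (by simp), Multiset.map_map]
    simp

theorem wt_door (h : St1 c Adm) (K : KF flip Adm 9) {i j : C10} (hij : i ≠ j) (φ : P → F) :
    wt K c (Finset.univ.erase i) φ + wt K c (Finset.univ.erase j) φ =
      wt K c ((Finset.univ.erase i).erase j) φ := by
  set T : Finset C10 := (Finset.univ.erase i).erase j with hT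
  have e0 := K.J_d (n := 8) flip_flip
    (fun M => (if (neg M).map c = T.val then 1 else 0) * ((pos M).map φ).sum)
  have ej : j ::ₘ T.val = (Finset.univ.erase i).val := by
    rw [hT, Finset.erase_val (Finset.univ.erase i), Multiset.cons_erase]
    exact Finset.mem_def.1 (by simp [hij.symm])
  have ei : i ::ₘ T.val = (Finset.univ.erase j).val := by
    rw [hT, Finset.erase_right_comm, Finset.erase_val (Finset.univ.erase j), Multiset.cons_erase]
    exact Finset.mem_def.1 (by simp [hij])
  have e1 : K.J (dM (fun M => (if (neg M).map c = T.val then 1 else 0) * ((pos M).map φ).sum)) =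
      wt K c (Finset.univ.erase i) φ + wt K c (Finset.univ.erase j) φ + wt K c T φ := by
    simp only [wt]
    rw [← map_add, ← map_add]
    apply K.J_congr h.neg
    intro M hM hc
    rw [dM_prod (fun N => if N.map c = T.val then 1 else 0) (fun N => (N.map φ).sum),
      dM_map c (fun N => if N = T.val then 1 else 0), dM_indicator T.nodup,
      Finset.sum_eq_add_of_mem j i
        (Finset.mem_filter.2 ⟨Finset.mem_univ _, fun h => by
          have := Finset.mem_def.2 h; simp [hT] at this⟩)
        (Finset.mem_filter.2 ⟨Finset.mem_univ _, fun h => by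
          have := Finset.mem_def.2 h; simp [hT] at this⟩) hij.symm, ei, ej]
    · simp only [Pi.add_apply]
      rw [add_mul]
      congr 1
      split_ifs with hN
      · have hcn : Multiset.card (neg M) = 8 := by
          have := congrArg Multiset.card hN
          rw [Multiset.card_map] at this
          rw [this, Finset.card_val, hT, Finset.card_erase_of_mem (by simp [hij.symm]),
            Finset.card_erase_of_mem (Finset.mem_univ _)]
          rfl
        have hcp : Multiset.card (pos M) = 2 := by
          have := card_pos_neg M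
          omega
        obtain ⟨p, q, hp⟩ := Multiset.card_eq_two.1 hcp
        rw [hp, Multiset.insert_eq_cons, dM_cons, ← Multiset.cons_zero q, dM_cons, dM_nil]
        simp [add_comm]
      · simp
    · intro k hk hne
      exfalso
      apply (Finset.mem_filter.1 hk).2
      exact Finset.mem_def.1 (by simp [hT, hne.1, hne.2])
  rw [e1] at e0
  have := F_add_self (wt K c T φ)
  linear_combination e0 - this

end Vale.Agent.P052
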