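import Vale.Agent.P052.TwoGraph

/-! The clique complex of a sign pattern on ten colours carries no odd three-cycle. -/

namespace Vale.Agent.P052

/-- cliques of the double cover defined by the sign pattern `u` -/
def AdmU (u : C10 → C10 → F) (M : Multiset (C10 × F)) : Prop :=
  ∀ a ∈ M, ∀ b ∈ M, a.2 + b.2 = u a.1 b.1

variable {u : C10 → C10 → F}

theorem admOK_U (hd : ∀ i, u i i = 0) : AdmOK (AdmU u) where
  sub M N h hM a ha b hb := hM a (Multiset.mem_of_le h ha) b (Multiset.mem_of_le h hb)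
  neg M hM a ha b hb := by
    obtain ⟨a', ha', rfl⟩ := Multiset.mem_map.1 ha
    obtain ⟨b', hb', rfl⟩ := Multiset.mem_map.1 hb
    have := hM a' ha' b' hb'
    simp only [flip]
    have h1 := F_add_self (1 : F)
    linear_combination this + h1
  fn M hM a ha b hb h := by
    have := hM a ha b hb
    rw [h, hd] at this
    have h2 := F_add_self b.2
    exact Prod.ext h (by linear_combination this - h2)

theorem uniq_U (M : Multiset (C10 × F)) (v : C10) (s : F) (h0 : M ≠ 0)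
    (h1 : AdmU u ((v, s) ::ₘ M)) : ¬ AdmU u ((v, s + 1) ::ₘ M) := by
  intro h2
  obtain ⟨b, hb⟩ := Multiset.exists_mem_of_ne_zero h0
  have e1 := h1 (v, s) (by simp) b (by simp [hb])
  have e2 := h2 (v, s + 1) (by simp) b (by simp [hb])
  simp only at e1 e2
  have : (1 : F) = 0 := by linear_combination e2 - e1
  exact one_ne_zero this

theorem Ev.balanced {S : Finset C10} (h : Ev u S) : Balanced (AdmU u) S := by
  obtain ⟨q, hq⟩ := h
  refine ⟨fun i => u q i, ?_⟩
  intro M hM a ha b hb haS hbS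
  have e1 := hM a ha b hb
  have e2 := hq _ haS _ hbS
  simp only [t] at e2
  have h1 := F_add_self b.2
  have h2 := F_add_self (u q b.1)
  linear_combination e1 + e2 - h1 - h2

theorem AdmU.t_eq {M : Multiset (C10 × F)} (h : AdmU u M) {a b c : C10 × F} (ha : a ∈ M)
    (hb : b ∈ M) (hc : c ∈ M) : t u a.1 b.1 c.1 = 0 := by
  simp only [t]
  rw [← h a ha b hb, ← h b hb c hc, ← h a ha c hc]
  have h1 := F_add_self a.2
  have h2 := F_add_self b.2
  have h3 := F_add_self c.2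
  linear_combination h1 + h2 + h3

theorem hyp_of_KF (hs : ∀ i j, u i j = u j i) (hd : ∀ i, u i i = 0) (K : KF flip (AdmU u) 3) :
    Hyp u where
  symm := hs
  diag := hd
  cover S1 S2 S3 h1 h2 h3 h := by
    have hA := admOK_U hd
    have := ((small_empty.union hA h1.balanced).union hA h2.balanced).union hA h3.balanced
    rw [Finset.empty_union, h] at this
    exact not_small_univ K this
  star S v hS := by
    have hA := admOK_U hd
    by_contra hcon
    have h1 : Small (AdmU u) Sᶜ (1 + 1) := by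
      apply small_of_star hA uniq_U Sᶜ v 1
      intro M hM hc hn hB
      by_contra hv
      obtain ⟨a, b, c, rfl⟩ := Multiset.card_eq_three.1 hc
      have ha : a ∈ ({a, b, c} : Multiset (C10 × F)) := by simp
      have hb : b ∈ ({a, b, c} : Multiset (C10 × F)) := by simp
      have hc : c ∈ ({a, b, c} : Multiset (C10 × F)) := by simp
      have hn' : a ≠ b ∧ b ≠ c ∧ a ≠ c := by
        simp only [Multiset.insert_eq_cons, Multiset.nodup_cons, Multiset.mem_cons,
          Multiset.mem_singleton, not_or] at hn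
        exact ⟨hn.1.1, hn.2.1, hn.1.2⟩
      apply hcon
      refine ⟨a.1, b.1, c.1, fun h => hn'.1 (hA.fn _ hM a ha b hb h),
        fun h => hn'.2.1 (hA.fn _ hM b hb c hc h), fun h => hn'.2.2 (hA.fn _ hM a ha c hc h),
        Finset.mem_compl.1 (hB a ha), Finset.mem_compl.1 (hB b hb), Finset.mem_compl.1 (hB c hc),
        ?_, ?_, ?_, hM.t_eq ha hb hc⟩
      · rintro rfl; exact hv (Multiset.mem_map_of_mem _ ha)
      · rintro rfl; exact hv (Multiset.mem_map_of_mem _ hb)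
      · rintro rfl; exact hv (Multiset.mem_map_of_mem _ hc)
    have := h1.union hA hS.balanced
    rw [Finset.union_comm, Finset.union_compl] at this
    exact not_small_univ K this

theorem neighbour (hd : ∀ i, u i i = 0) (K : KF flip (AdmU u) 3) {a b c d : C10 × F}
    (hn : (a ::ₘ b ::ₘ c ::ₘ {d}).Nodup) (hA : AdmU u (a ::ₘ b ::ₘ c ::ₘ {d}))
    (h : K.J (fun M => if M = a ::ₘ b ::ₘ c ::ₘ {d} then 1 else 0) = 1) :
    ∃ e : C10, (e ≠ a.1 ∧ e ≠ b.1 ∧ e ≠ c.1 ∧ e ≠ d.1) ∧ t u e b.1 c.1 = 0 ∧ t u e b.1 d.1 = 0 ∧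
      t u e c.1 d.1 = 0 := by
  have hO := admOK_U hd
  obtain ⟨ha, hR⟩ := Multiset.nodup_cons.1 hn
  have hdoor := door (n := 2) K flip_flip hR
  obtain ⟨e, he, hea, hJ⟩ : ∃ e, e ∉ (b ::ₘ c ::ₘ {d} : Multiset (C10 × F)) ∧ e ≠ a ∧
      K.J (fun M => if M = e ::ₘ b ::ₘ c ::ₘ {d} then 1 else 0) ≠ 0 := by
    by_contra hcon
    push Not at hcon
    rw [Finset.sum_eq_single a, h] at hdoor
    · exact one_ne_zero hdoor
    · intro e he hea
      exact hcon e (Finset.mem_filter.1 he).2 hea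
    · intro h'
      exact (h' (Finset.mem_filter.2 ⟨Finset.mem_univ a, ha⟩)).elim
  have hE := adm_of_J hO K hJ
  have hne : ∀ x ∈ (b ::ₘ c ::ₘ {d} : Multiset (C10 × F)), e.1 ≠ x.1 := by
    intro x hx h
    have := hO.fn _ hE e (by simp) x (Multiset.mem_cons_of_mem hx) h
    rw [this] at he
    exact he hx
  refine ⟨e.1, ⟨?_, hne b (by simp), hne c (by simp), hne d (by simp)⟩,
    hE.t_eq (by simp) (by simp) (by simp), hE.t_eq (by simp) (by simp) (by simp),
    hE.t_eq (by simp) (by simp) (by simp)⟩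
  intro h1
  apply hea
  have e1 := hA a (by simp) b (by simp)
  have e2 := hE e (by simp) b (by simp)
  rw [h1] at e2
  exact Prod.ext h1 (by linear_combination e2 - e1)

theorem stage2 (hs : ∀ i j, u i j = u j i) (hd : ∀ i, u i i = 0) (K : KF flip (AdmU u) 3) :
    False := by
  have hu := hyp_of_KF hs hd K
  have hO := admOK_U hd
  obtain ⟨R, hn, hA, hc, hJ⟩ := exists_top hO K
  obtain ⟨a, b, c, d, rfl⟩ := Multiset.card_eq_four.1 hc
  have p0 : ({a, b, c, d} : Multiset (C10 × F)) = a ::ₘ b ::ₘ c ::ₘ {d} := rfl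
  have p1 : ({a, b, c, d} : Multiset (C10 × F)) = b ::ₘ a ::ₘ c ::ₘ {d} := by
    rw [p0, Multiset.cons_swap]
  have p2 : ({a, b, c, d} : Multiset (C10 × F)) = c ::ₘ a ::ₘ b ::ₘ {d} := by
    rw [p0, Multiset.cons_swap b c, Multiset.cons_swap a c]
  have p3 : ({a, b, c, d} : Multiset (C10 × F)) = d ::ₘ a ::ₘ b ::ₘ {c} := by
    rw [p0, Multiset.cons_swap d a, Multiset.cons_swap d b]
    congr 2
    exact Multiset.cons_swap c d 0
  obtain ⟨e0, n0, t01, t02, t03⟩ := neighbour hd K (p0 ▸ hn) (p0 ▸ hA) (p0 ▸ hJ)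
  obtain ⟨e1, n1, t11, t12, t13⟩ := neighbour hd K (p1 ▸ hn) (p1 ▸ hA) (p1 ▸ hJ)
  obtain ⟨e2, n2, t21, t22, t23⟩ := neighbour hd K (p2 ▸ hn) (p2 ▸ hA) (p2 ▸ hJ)
  obtain ⟨e3, n3, t31, t32, t33⟩ := neighbour hd K (p3 ▸ hn) (p3 ▸ hA) (p3 ▸ hJ)
  have ha : a ∈ ({a, b, c, d} : Multiset (C10 × F)) := by simp
  have hb : b ∈ ({a, b, c, d} : Multiset (C10 × F)) := by simp
  have hc : c ∈ ({a, b, c, d} : Multiset (C10 × F)) := by simp
  have hd' : d ∈ ({a, b, c, d} : Multiset (C10 × F)) := by simp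
  have hn' := hn
  simp only [Multiset.insert_eq_cons, Multiset.nodup_cons, Multiset.mem_cons,
    Multiset.mem_singleton, not_or] at hn'
  obtain ⟨⟨ab, ac, ad⟩, ⟨bc, bd⟩, cd, -⟩ := hn'
  refine final hu (a0 := a.1) (a1 := b.1) (a2 := c.1) (a3 := d.1) (e0 := e0) (e1 := e1)
    (e2 := e2) (e3 := e3) (fun h => ab (hO.fn _ hA _ ha _ hb h))
    (fun h => ac (hO.fn _ hA _ ha _ hc h)) (fun h => ad (hO.fn _ hA _ ha _ hd' h))
    (fun h => bc (hO.fn _ hA _ hb _ hc h)) (fun h => bd (hO.fn _ hA _ hb _ hd' h))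
    (fun h => cd (hO.fn _ hA _ hc _ hd' h)) n0 ⟨n1.2.1, n1.1, n1.2.2.1, n1.2.2.2⟩
    ⟨n2.2.1, n2.2.2.1, n2.1, n2.2.2.2⟩ ⟨n3.2.1, n3.2.2.1, n3.2.2.2, n3.1⟩
    (ev4 hu (hA.t_eq ha hb hc) (hA.t_eq ha hb hd') (hA.t_eq ha hc hd')) (ev4 hu t01 t02 t03)
    ((ev4 hu t11 t12 t13).sub4 (by simp) (by simp) (by simp) (by simp))
    ((ev4 hu t21 t22 t23).sub4 (by simp) (by simp) (by simp) (by simp))
    ((ev4 hu t31 t32 t33).sub4 (by simp) (by simp) (by simp) (by simp))

end Vale.Agent.P052
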