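import Vale.Agent.P052.KF

/-! Towers of cochains representing the powers of the characteristic class. -/

namespace Vale.Agent.P052

variable {C : Type*}

/-- the involution on signed colours -/
def flip (a : C × F) : C × F := (a.1, a.2 + 1)

theorem flip_flip (a : C × F) : flip (flip a) = a := by
  have : a.2 + 1 + 1 = a.2 := by rw [add_assoc, F_add_self, add_zero]
  simp [flip, this]

theorem map_flip_flip (M : Multiset (C × F)) : (M.map flip).map flip = M := by
  rw [Multiset.map_map]
  conv_rhs => rw [← Multiset.map_id M]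
  exact Multiset.map_congr rfl (fun y _ => flip_flip y)

theorem flip_injective : Function.Injective (flip : C × F → C × F) :=
  fun a b h => by rw [← flip_flip a, h, flip_flip]

theorem map_fst_flip (M : Multiset (C × F)) : (M.map flip).map Prod.fst = M.map Prod.fst := by
  rw [Multiset.map_map]; rfl

structure AdmOK (Adm : Multiset (C × F) → Prop) : Prop where
  sub : ∀ M N, N ≤ M → Adm M → Adm N
  neg : ∀ M, Adm M → Adm (M.map flip)
  fn : ∀ M, Adm M → ∀ a ∈ M, ∀ b ∈ M, a.1 = b.1 → a = b

def Tower (Adm : Multiset (C × F) → Prop) : ℕ → (Multiset (C × F) → F) → Prop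
  | 0, θ => θ = fun _ => 1
  | k + 1, θ' => ∃ θ α, Tower Adm k θ ∧
      (∀ M, Adm M → Multiset.card M = k + 1 → α M + α (M.map flip) = θ M) ∧
      (∀ M, ¬ M.Nodup → α M = 0) ∧ θ' = dM α

variable {Adm : Multiset (C × F) → Prop}

theorem Tower.I_eq {n : ℕ} (K : KF flip Adm n) :
    ∀ k ≤ n, ∀ θ, Tower Adm k θ → K.I k θ = 1
  | 0, _, θ, h => by rw [show θ = fun _ => 1 from h]; exact K.one
  | k + 1, hk, θ', ⟨θ, α, h1, h2, _, h4⟩ => by
    rw [h4, K.bd k (by omega), K.congr (by omega) h2]
    exact Tower.I_eq K k (by omega) θ h1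

theorem Tower.d {k : ℕ} {θ : Multiset (C × F) → F} (h : Tower Adm k θ) {M : Multiset (C × F)}
    (hM : Multiset.card M = k + 2) : dM θ M = 0 := by
  cases k with
  | zero =>
    rw [show θ = fun _ => 1 from h, dM_const, hM]
    decide
  | succ k =>
    obtain ⟨_, α, _, _, _, rfl⟩ := h
    exact dM_dM α M

theorem Tower.nd {k : ℕ} {θ : Multiset (C × F) → F} (h : Tower Adm k θ) {M : Multiset (C × F)}
    (hM : Multiset.card M = k + 1) (hn : ¬ M.Nodup) : θ M = 0 := by
  cases k with
  | zero =>
    obtain ⟨a, rfl⟩ := Multiset.card_eq_one.1 hM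
    simp at hn
  | succ k =>
    obtain ⟨_, α, _, _, h3, rfl⟩ := h
    exact dM_not_nodup (fun N _ hN => h3 N hN) hn

theorem Tower.inv (hA : AdmOK Adm) {k : ℕ} {θ : Multiset (C × F) → F} (h : Tower Adm k θ)
    {M : Multiset (C × F)} (hM : Adm M) (hc : Multiset.card M = k + 1) :
    θ (M.map flip) = θ M := by
  classical
  cases k with
  | zero => rw [show θ = fun _ => 1 from h]
  | succ k =>
    obtain ⟨θ, α, h1, h2, _, rfl⟩ := h
    have e1 : dM α M + dM α (M.map flip) = dM θ M := by
      rw [← dM_map, ← dM_add]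
      apply dM_congr
      intro v hv
      apply h2
      · exact hA.sub _ _ (Multiset.erase_le _ _) hM
      · rw [Multiset.card_erase_of_mem hv, hc]; rfl
    rw [h1.d hc] at e1
    have := F_add_self (dM α M)
    linear_combination e1 - this

theorem exists_rep [Nonempty C] (hA : AdmOK Adm) (S : Finset C) (φ : C → F) :
    ∃ rep : Multiset (C × F) → F, (∀ M, Adm M → M ≠ 0 → rep M + rep (M.map flip) = 1) ∧
      ∀ M r, Adm M → (∃ a ∈ M, a.1 ∈ S) → (∀ a ∈ M, a.1 ∈ S → a.2 + φ a.1 = r) → rep M = r := by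
  classical
  let pick : Multiset C → C := fun N =>
    Classical.epsilon (fun i => i ∈ N ∧ (i ∈ S ∨ ∀ j ∈ N, j ∉ S))
  have hpick : ∀ N : Multiset C, N ≠ 0 → pick N ∈ N ∧ (pick N ∈ S ∨ ∀ j ∈ N, j ∉ S) := by
    intro N hN
    apply Classical.epsilon_spec (p := fun i => i ∈ N ∧ (i ∈ S ∨ ∀ j ∈ N, j ∉ S))
    by_cases h : ∃ j ∈ N, j ∈ S
    · obtain ⟨j, h1, h2⟩ := h
      exact ⟨j, h1, Or.inl h2⟩
    · obtain ⟨j, hj⟩ := Multiset.exists_mem_of_ne_zero hN
      push Not at h
      exact ⟨j, hj, Or.inr h⟩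
  let rep : Multiset (C × F) → F := fun M =>
    if (pick (M.map Prod.fst), φ (pick (M.map Prod.fst))) ∈ M then 0 else 1
  have hrep : ∀ M, Adm M → ∀ a ∈ M, a.1 = pick (M.map Prod.fst) → rep M = a.2 + φ a.1 := by
    intro M hM a ha h
    simp only [rep, ← h]
    split_ifs with h1
    · have := hA.fn M hM _ h1 a ha rfl
      rw [← this]
      exact (F_add_self _).symm
    · have : a.2 ≠ φ a.1 := by
        intro h2
        apply h1
        rw [← h2]
        exact ha
      revert this
      generalize a.2 = x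
      generalize φ a.1 = y
      revert x y
      decide
  refine ⟨rep, ?_, ?_⟩
  · intro M hM h0
    have hN : M.map Prod.fst ≠ 0 := by simpa using h0
    obtain ⟨a, ha, h⟩ := Multiset.mem_map.1 (hpick _ hN).1
    rw [hrep M hM a ha h, hrep _ (hA.neg M hM) (flip a) (Multiset.mem_map_of_mem _ ha)
      (by rw [map_fst_flip]; exact h)]
    simp only [flip]
    have := F_add_self (a.2 + φ a.1)
    linear_combination this
  · rintro M r hM ⟨b, hb, hbS⟩ hr
    have hN : M.map Prod.fst ≠ 0 := by
      intro h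
      rw [Multiset.map_eq_zero] at h
      simp [h] at hb
    obtain ⟨a, ha, h⟩ := Multiset.mem_map.1 (hpick _ hN).1
    rw [hrep M hM a ha h]
    apply hr a ha
    rcases (hpick _ hN).2 with h' | h'
    · rw [h]; exact h'
    · exact absurd hbS (h' _ (Multiset.mem_map_of_mem _ hb))

theorem Tower.step [DecidableEq C] (hA : AdmOK Adm) {k : ℕ} {θ : Multiset (C × F) → F} (h : Tower Adm k θ)
    {rep : Multiset (C × F) → F} (hrep : ∀ M, Adm M → M ≠ 0 → rep M + rep (M.map flip) = 1) :
    (∀ M, Adm M → Multiset.card M = k + 1 →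
      (fun N => if N.Nodup then θ N * rep N else 0) M +
      (fun N => if N.Nodup then θ N * rep N else 0) (M.map flip) = θ M) := by
  intro M hM hc
  have h0 : M ≠ 0 := by rintro rfl; simp at hc
  have hnd : (M.map flip).Nodup ↔ M.Nodup := Multiset.nodup_map_iff_of_injective flip_injective
  by_cases hn : M.Nodup
  · simp only [hn, hnd, if_true]
    rw [h.inv hA hM hc, ← mul_add, hrep M hM h0, mul_one]
  · simp only [hn, hnd, if_false]
    rw [h.nd hc hn, add_zero]

theorem exists_half [Nonempty C] (hA : AdmOK Adm) {k : ℕ} {θ : Multiset (C × F) → F}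
    (h : Tower Adm k θ) : ∃ α : Multiset (C × F) → F,
      (∀ M, Adm M → Multiset.card M = k + 1 → α M + α (M.map flip) = θ M) ∧
      (∀ M, ¬ M.Nodup → α M = 0) := by
  classical
  obtain ⟨rep, h1, _⟩ := exists_rep hA ∅ (fun _ => 0)
  exact ⟨_, h.step hA h1, fun M hM => by simp [hM]⟩

theorem exists_tower [Nonempty C] (hA : AdmOK Adm) (k : ℕ) : ∃ θ, Tower Adm k θ := by
  induction k with
  | zero => exact ⟨_, rfl⟩
  | succ k ih =>
    obtain ⟨θ, h⟩ := ih
    obtain ⟨α, h1, h2⟩ := exists_half hA h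
    exact ⟨_, θ, α, h, h1, h2, rfl⟩

/-- the `k`-th power of the class vanishes over the colours in `B` -/
def Small (Adm : Multiset (C × F) → Prop) (B : Finset C) (k : ℕ) : Prop :=
  ∃ θ, Tower Adm k θ ∧
    ∀ M, Adm M → Multiset.card M = k + 1 → (∀ a ∈ M, a.1 ∈ B) → θ M = 0

def Balanced (Adm : Multiset (C × F) → Prop) (S : Finset C) : Prop :=
  ∃ φ : C → F, ∀ M, Adm M → ∀ a ∈ M, ∀ b ∈ M, a.1 ∈ S → b.1 ∈ S → a.2 + φ a.1 = b.2 + φ b.1

theorem small_empty : Small Adm ∅ 0 := by
  refine ⟨_, rfl, ?_⟩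
  intro M _ hc h
  obtain ⟨a, rfl⟩ := Multiset.card_eq_one.1 hc
  simpa using h a (by simp)

theorem not_small_univ [Fintype C] {n : ℕ} (K : KF flip Adm n) : ¬ Small Adm Finset.univ n := by
  rintro ⟨θ, h1, h2⟩
  have := Tower.I_eq K n le_rfl θ h1
  rw [K.supp n le_rfl θ (fun M hM hc => h2 M hM hc (by simp))] at this
  exact zero_ne_one this

theorem Small.union [Nonempty C] [DecidableEq C] (hA : AdmOK Adm) {B S : Finset C} {k : ℕ}
    (h : Small Adm B k) (hS : Balanced Adm S) : Small Adm (B ∪ S) (k + 1) := by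
  classical
  obtain ⟨θ, h1, h2⟩ := h
  obtain ⟨φ, hφ⟩ := hS
  obtain ⟨rep, r1, r2⟩ := exists_rep hA S φ
  refine ⟨_, ⟨θ, _, h1, h1.step hA r1, fun M hM => by simp [hM], rfl⟩, ?_⟩
  intro M hM hc hB
  obtain ⟨r, hr⟩ : ∃ r, ∀ a ∈ M, a.1 ∈ S → a.2 + φ a.1 = r := by
    by_cases hex : ∃ b ∈ M, b.1 ∈ S
    · obtain ⟨b, hb, hbS⟩ := hex
      exact ⟨_, fun a ha haS => hφ M hM a ha b hb haS hbS⟩
    · push Not at hex
      exact ⟨0, fun a ha haS => absurd haS (hex a ha)⟩
  have : dM (fun N => if N.Nodup then θ N * rep N else 0) M = dM (fun N => r * θ N) M := by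
    apply dM_congr
    intro v hv
    have hle := Multiset.erase_le v M
    have hA' := hA.sub _ _ hle hM
    have hc' : Multiset.card (M.erase v) = k + 1 := by
      rw [Multiset.card_erase_of_mem hv, hc]; rfl
    by_cases hn : (M.erase v).Nodup
    · simp only [hn, if_true]
      by_cases hex : ∃ b ∈ M.erase v, b.1 ∈ S
      · rw [r2 _ r hA' hex (fun a ha => hr a (Multiset.mem_of_le hle ha)), mul_comm]
      · push Not at hex
        rw [h2 _ hA' hc', zero_mul, mul_zero]
        intro a ha
        rcases Finset.mem_union.1 (hB a (Multiset.mem_of_le hle ha)) with h | h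
        · exact h
        · exact absurd h (hex a ha)
    · simp only [hn, if_false]
      rw [h1.nd hc' hn, mul_zero]
  rw [this, dM_mul, h1.d hc, mul_zero]

theorem small_of_star [Nonempty C] [DecidableEq C] (hA : AdmOK Adm)
    (huniq : ∀ M v s, M ≠ 0 → Adm ((v, s) ::ₘ M) → ¬ Adm ((v, s + 1) ::ₘ M))
    (B : Finset C) (v : C) (j : ℕ)
    (hv : ∀ M, Adm M → Multiset.card M = j + 2 → M.Nodup → (∀ a ∈ M, a.1 ∈ B) →
      v ∈ M.map Prod.fst) : Small Adm B (j + 1) := by
  classical
  obtain ⟨θ0, h0⟩ := exists_tower hA j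
  obtain ⟨α, a1, a2⟩ := exists_half hA h0
  have hT : Tower Adm (j + 1) (dM α) := ⟨θ0, α, h0, a1, a2, rfl⟩
  let γ : Multiset (C × F) → F := fun N => if Adm N then dM α N else 0
  let β : Multiset (C × F) → F := fun M =>
    if v ∈ M.map Prod.fst then 0 else γ ((v, 0) ::ₘ M) + γ ((v, 1) ::ₘ M)
  have γinv : ∀ N, Multiset.card N = j + 2 → γ (N.map flip) = γ N := by
    intro N hN
    by_cases h : Adm N
    · simp only [γ, h, hA.neg N h, if_true]
      exact hT.inv hA h hN
    · have h' : ¬ Adm (N.map flip) := by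
        intro h'
        have := hA.neg _ h'
        rw [map_flip_flip] at this
        exact h this
      simp only [γ, h, h', if_false]
  have γnd : ∀ N, ¬ N.Nodup → γ N = 0 := by
    intro N hN
    simp only [γ]
    split_ifs
    · exact dM_not_nodup (fun N' _ h => a2 N' h) hN
    · rfl
  have hT' : Tower Adm (j + 1) (dM (fun M => α M + β M)) := by
    refine ⟨θ0, _, h0, ?_, ?_, rfl⟩
    · intro M hM hc
      have : β (M.map flip) = β M := by
        simp only [β, map_fst_flip]
        split_ifs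
        · rfl
        · have e0 : (v, (0 : F)) ::ₘ M.map flip = ((v, 1) ::ₘ M).map flip := by
            rw [Multiset.map_cons]; rfl
          have e1 : (v, (1 : F)) ::ₘ M.map flip = ((v, 0) ::ₘ M).map flip := by
            rw [Multiset.map_cons]; rfl
          rw [e0, e1, γinv _ (by simp [hc]), γinv _ (by simp [hc]), add_comm]
      rw [this, ← a1 M hM hc]
      have := F_add_self (β M)
      linear_combination this
    · intro M hM
      rw [a2 M hM, zero_add]
      simp only [β]
      split_ifs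
      · rfl
      · rw [γnd, γnd, add_zero] <;>
        · rw [Multiset.nodup_cons]; tauto
  refine ⟨_, hT', ?_⟩
  intro M hM hc hB
  by_cases hn : M.Nodup
  · obtain ⟨a, ha, hav⟩ := Multiset.mem_map.1 (hv M hM hc hn hB)
    obtain ⟨M', rfl⟩ := Multiset.exists_cons_of_mem ha
    obtain ⟨v', s⟩ := a
    obtain rfl : v' = v := hav
    have hM0 : M' ≠ 0 := by
      rintro rfl
      simp at hc
    have hnot : v' ∉ M'.map Prod.fst := by
      intro h
      obtain ⟨b, hb, hbv⟩ := Multiset.mem_map.1 h
      have := hA.fn _ hM b (Multiset.mem_cons_of_mem hb) (v', s) (Multiset.mem_cons_self _ _) hbv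
      rw [this] at hb
      exact (Multiset.nodup_cons.1 hn).1 hb
    rw [dM_add, dM_cons β]
    have e1 : dM (fun N => β ((v', s) ::ₘ N)) M' = 0 := by
      apply dM_eq_zero
      intro w _
      simp [β]
    have e2 : β M' = dM α ((v', s) ::ₘ M') := by
      simp only [β, hnot, if_false]
      have hu := huniq M' v' s hM0 hM
      rcases F_cases s with rfl | rfl
      · have hu' : ¬ Adm ((v', 1) ::ₘ M') := hu
        simp only [γ, hM, hu', if_true, if_false, add_zero]
      · have hu' : ¬ Adm ((v', 0) ::ₘ M') := hu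
        simp only [γ, hM, hu', if_true, if_false, zero_add]
    rw [e1, e2, add_zero, F_add_self]
  · exact hT'.nd hc hn

theorem exists_top [Nonempty C] [Fintype C] [DecidableEq C] (hA : AdmOK Adm) {n : ℕ}
    (K : KF flip Adm n) : ∃ R : Multiset (C × F), R.Nodup ∧ Adm R ∧ Multiset.card R = n + 1 ∧
      K.J (fun M => if M = R then 1 else 0) = 1 := by
  classical
  obtain ⟨θ, h⟩ := exists_tower hA n
  obtain ⟨α, a1, a2⟩ := exists_half hA h
  have h1 : K.J α = 1 := by
    rw [K.J_apply, K.congr le_rfl a1]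
    exact Tower.I_eq K n le_rfl θ h
  by_contra hcon
  push Not at hcon
  let T : Finset (Finset (C × F)) := Finset.univ.filter
    (fun s => Adm s.val ∧ Multiset.card s.val = n + 1 ∧ α s.val = 1)
  have h2 : K.J α = K.J (∑ s ∈ T, fun M => if M = s.val then 1 else 0) := by
    apply K.J_congr hA.neg
    intro M hM hc
    rw [Finset.sum_apply]
    by_cases hn : M.Nodup
    · rcases F_cases (α M) with h0 | h0
      · rw [h0, Finset.sum_eq_zero]
        intro s hs
        rw [if_neg]
        rintro rfl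
        rw [(Finset.mem_filter.1 hs).2.2.2] at h0
        exact one_ne_zero h0
      · rw [h0, Finset.sum_eq_single ⟨M, hn⟩]
        · simp
        · intro s _ hs
          rw [if_neg]
          rintro rfl
          exact hs rfl
        · intro hs
          exact absurd (Finset.mem_filter.2 ⟨Finset.mem_univ _, hM, hc, h0⟩) hs
    · rw [a2 M hn, Finset.sum_eq_zero]
      intro s _
      rw [if_neg]
      rintro rfl
      exact hn s.nodup
  rw [h2, map_sum, Finset.sum_eq_zero] at h1
  · exact zero_ne_one h1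
  · intro s hs
    have := (Finset.mem_filter.1 hs).2
    rcases F_cases (K.J fun M => if M = s.val then 1 else 0) with h0 | h0
    · exact h0
    · exact absurd h0 (hcon _ s.nodup this.1 this.2.1)

theorem door {Y : Type*} [Fintype Y] [DecidableEq Y] {ν : Y → Y} {Adm : Multiset Y → Prop}
    {n : ℕ} (K : KF ν Adm (n + 1)) (hν : ∀ y, ν (ν y) = y) {R : Multiset Y} (hR : R.Nodup) :
    ∑ a ∈ Finset.univ.filter (fun a => a ∉ R),
      K.J (fun M => if M = a ::ₘ R then 1 else 0) = 0 := by
  rw [← map_sum]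
  refine Eq.trans ?_ (K.J_d hν (fun N => if N = R then 1 else 0))
  congr 1
  funext M
  rw [dM_indicator hR, Finset.sum_apply]

theorem adm_of_J (hA : AdmOK Adm) [DecidableEq C] {n : ℕ} (K : KF flip Adm n)
    {R : Multiset (C × F)} (h : K.J (fun M => if M = R then 1 else 0) ≠ 0) : Adm R := by
  by_contra hR
  apply h
  rw [K.J_congr hA.neg (H := 0), map_zero]
  intro M hM _
  rw [if_neg]
  · rfl
  · rintro rfl
    exact hR hM

end Vale.Agent.P052
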