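import Vale.Agent.P052.Tower

/-! No two-graph on ten points has a clique complex of index three. -/

namespace Vale.Agent.P052

set_option synthInstance.maxSize 10000 in
set_option synthInstance.maxHeartbeats 400000 in
set_option maxRecDepth 10000 in
theorem six_pure : ∀ y12 y13 y14 y15 y23 y24 y25 y34 y35 y45 : F,
    ¬ (y12 = 0 ∧ y13 = 0 ∧ y23 = 0 ∧ y12 + y23 + y13 = 0) →
    ¬ (y12 = 0 ∧ y14 = 0 ∧ y24 = 0 ∧ y12 + y24 + y14 = 0) →
    ¬ (y12 = 0 ∧ y15 = 0 ∧ y25 = 0 ∧ y12 + y25 + y15 = 0) →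
    ¬ (y13 = 0 ∧ y14 = 0 ∧ y34 = 0 ∧ y13 + y34 + y14 = 0) →
    ¬ (y13 = 0 ∧ y15 = 0 ∧ y35 = 0 ∧ y13 + y35 + y15 = 0) →
    ¬ (y14 = 0 ∧ y15 = 0 ∧ y45 = 0 ∧ y14 + y45 + y15 = 0) →
    ¬ (y23 = 0 ∧ y24 = 0 ∧ y34 = 0 ∧ y23 + y34 + y24 = 0) →
    ¬ (y23 = 0 ∧ y25 = 0 ∧ y35 = 0 ∧ y23 + y35 + y25 = 0) →
    ¬ (y24 = 0 ∧ y25 = 0 ∧ y45 = 0 ∧ y24 + y45 + y25 = 0) →
    ¬ (y34 = 0 ∧ y35 = 0 ∧ y45 = 0 ∧ y34 + y45 + y35 = 0) →
    ¬ (y12 + y23 + y13 = 0 ∧ y12 + y24 + y14 = 0 ∧ y13 + y34 + y14 = 0 ∧ y23 + y34 + y24 = 0) →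
    ¬ (y12 + y23 + y13 = 0 ∧ y12 + y25 + y15 = 0 ∧ y13 + y35 + y15 = 0 ∧ y23 + y35 + y25 = 0) →
    ¬ (y12 + y24 + y14 = 0 ∧ y12 + y25 + y15 = 0 ∧ y14 + y45 + y15 = 0 ∧ y24 + y45 + y25 = 0) →
    ¬ (y13 + y34 + y14 = 0 ∧ y13 + y35 + y15 = 0 ∧ y14 + y45 + y15 = 0 ∧ y34 + y45 + y35 = 0) →
    ¬ (y23 + y34 + y24 = 0 ∧ y23 + y35 + y25 = 0 ∧ y24 + y45 + y25 = 0 ∧ y34 + y45 + y35 = 0) →
    ¬ (y12 = 0 ∧ y34 + y45 + y35 = 0) →
    ¬ (y13 = 0 ∧ y24 + y45 + y25 = 0) →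
    ¬ (y14 = 0 ∧ y23 + y35 + y25 = 0) →
    ¬ (y15 = 0 ∧ y23 + y34 + y24 = 0) →
    ¬ (y23 = 0 ∧ y14 + y45 + y15 = 0) →
    ¬ (y24 = 0 ∧ y13 + y35 + y15 = 0) →
    ¬ (y25 = 0 ∧ y13 + y34 + y14 = 0) →
    ¬ (y34 = 0 ∧ y12 + y25 + y15 = 0) →
    ¬ (y35 = 0 ∧ y12 + y24 + y14 = 0) →
    ¬ (y45 = 0 ∧ y12 + y23 + y13 = 0) →
    (y12 + y23 + y13 = 0 ∨ y12 + y24 + y14 = 0 ∨ y12 + y25 + y15 = 0 ∨ y13 + y34 + y14 = 0 ∨ y13 + y35 + y15 = 0 ∨ y14 + y45 + y15 = 0 ∨ y23 + y34 + y24 = 0 ∨ y23 + y35 + y25 = 0 ∨ y24 + y45 + y25 = 0 ∨ y34 + y45 + y35 = 0) →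
    (y23 = 0 ∨ y24 = 0 ∨ y25 = 0 ∨ y34 = 0 ∨ y35 = 0 ∨ y45 = 0 ∨ y23 + y34 + y24 = 0 ∨ y23 + y35 + y25 = 0 ∨ y24 + y45 + y25 = 0 ∨ y34 + y45 + y35 = 0) →
    (y13 = 0 ∨ y14 = 0 ∨ y15 = 0 ∨ y34 = 0 ∨ y35 = 0 ∨ y45 = 0 ∨ y13 + y34 + y14 = 0 ∨ y13 + y35 + y15 = 0 ∨ y14 + y45 + y15 = 0 ∨ y34 + y45 + y35 = 0) →
    (y12 = 0 ∨ y14 = 0 ∨ y15 = 0 ∨ y24 = 0 ∨ y25 = 0 ∨ y45 = 0 ∨ y12 + y24 + y14 = 0 ∨ y12 + y25 + y15 = 0 ∨ y14 + y45 + y15 = 0 ∨ y24 + y45 + y25 = 0) →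
    (y12 = 0 ∨ y13 = 0 ∨ y15 = 0 ∨ y23 = 0 ∨ y25 = 0 ∨ y35 = 0 ∨ y12 + y23 + y13 = 0 ∨ y12 + y25 + y15 = 0 ∨ y13 + y35 + y15 = 0 ∨ y23 + y35 + y25 = 0) →
    (y12 = 0 ∨ y13 = 0 ∨ y14 = 0 ∨ y23 = 0 ∨ y24 = 0 ∨ y34 = 0 ∨ y12 + y23 + y13 = 0 ∨ y12 + y24 + y14 = 0 ∨ y13 + y34 + y14 = 0 ∨ y23 + y34 + y24 = 0) →
    y12 + y13 + y14 + y15 = 0 ∧ ¬ (y12 = y13 ∧ y12 = y23 ∧ y12 = y12 + y23 + y13) := by
  decide +kernel
abbrev C10 := Fin 10

/-- parity of a triple -/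
def t (u : C10 → C10 → F) (i j k : C10) : F := u i j + u j k + u i k

/-- a set on which the sign pattern is a coboundary -/
def Ev (u : C10 → C10 → F) (S : Finset C10) : Prop := ∃ q, ∀ i ∈ S, ∀ j ∈ S, t u q i j = 0

structure Hyp (u : C10 → C10 → F) : Prop where
  symm : ∀ i j, u i j = u j i
  diag : ∀ i, u i i = 0
  cover : ∀ S1 S2 S3, Ev u S1 → Ev u S2 → Ev u S3 → S1 ∪ S2 ∪ S3 ≠ Finset.univ
  star : ∀ S v, Ev u S → ∃ i j k, i ≠ j ∧ j ≠ k ∧ i ≠ k ∧ i ∉ S ∧ j ∉ S ∧ k ∉ S ∧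
    i ≠ v ∧ j ≠ v ∧ k ≠ v ∧ t u i j k = 0

variable {u : C10 → C10 → F}

theorem t_base (hu : Hyp u) (q i j k : C10) :
    t u i j k = t u q i j + t u q j k + t u q i k := by
  simp only [t]
  have h1 := F_add_self (u q i)
  have h2 := F_add_self (u q j)
  have h3 := F_add_self (u q k)
  linear_combination -h1 - h2 - h3

theorem t_12 (hu : Hyp u) (i j k : C10) : t u j i k = t u i j k := by
  simp only [t, hu.symm j i]; ring

theorem t_23 (hu : Hyp u) (i j k : C10) : t u i k j = t u i j k := by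
  simp only [t, hu.symm k j]; ring

theorem t_aab (hu : Hyp u) (i j : C10) : t u i i j = 0 := by
  simp only [t, hu.diag, zero_add, F_add_self]

theorem t_abb (hu : Hyp u) (i j : C10) : t u i j j = 0 := by
  simp only [t, hu.diag, add_zero, F_add_self]

theorem t_aba (hu : Hyp u) (i j : C10) : t u i j i = 0 := by
  simp only [t, hu.diag, add_zero, hu.symm j i, F_add_self]

theorem Ev.t_eq (hu : Hyp u) {S : Finset C10} (h : Ev u S) {i j k : C10} (hi : i ∈ S)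
    (hj : j ∈ S) (hk : k ∈ S) : t u i j k = 0 := by
  obtain ⟨q, hq⟩ := h
  rw [t_base hu q, hq i hi j hj, hq j hj k hk, hq i hi k hk, add_zero, add_zero]

theorem ev2 (hu : Hyp u) (a b : C10) : Ev u {a, b} := by
  refine ⟨a, ?_⟩
  intro i hi j hj
  simp only [Finset.mem_insert, Finset.mem_singleton] at hi hj
  rcases hi with rfl | rfl <;> rcases hj with rfl | rfl <;>
    simp only [t_aab hu, t_abb hu, t_aba hu]

theorem ev3 (hu : Hyp u) {a b c : C10} (h : t u a b c = 0) : Ev u {a, b, c} := by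
  refine ⟨a, ?_⟩
  have h' := (t_23 hu a b c).trans h
  intro i hi j hj
  simp only [Finset.mem_insert, Finset.mem_singleton] at hi hj
  rcases hi with rfl | rfl | rfl <;> rcases hj with rfl | rfl | rfl <;>
    simp only [t_aab hu, t_abb hu, t_aba hu, h, h']

theorem ev4 (hu : Hyp u) {a b c d : C10} (h1 : t u a b c = 0) (h2 : t u a b d = 0)
    (h3 : t u a c d = 0) : Ev u {a, b, c, d} := by
  refine ⟨a, ?_⟩
  have h1' := (t_23 hu a b c).trans h1
  have h2' := (t_23 hu a b d).trans h2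
  have h3' := (t_23 hu a c d).trans h3
  intro i hi j hj
  simp only [Finset.mem_insert, Finset.mem_singleton] at hi hj
  rcases hi with rfl | rfl | rfl | rfl <;> rcases hj with rfl | rfl | rfl | rfl <;>
    simp only [t_aab hu, t_abb hu, t_aba hu, h1, h1', h2, h2', h3, h3']

theorem ev_of_card_le_two (hu : Hyp u) {S : Finset C10} (h : S.card ≤ 2) : Ev u S := by
  obtain h0 | h1 | h2 : S.card = 0 ∨ S.card = 1 ∨ S.card = 2 := by omega
  · rw [Finset.card_eq_zero.1 h0]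
    exact ⟨0, by simp⟩
  · obtain ⟨a, rfl⟩ := Finset.card_eq_one.1 h1
    simpa using ev2 hu a a
  · obtain ⟨a, b, _, rfl⟩ := Finset.card_eq_two.1 h2
    exact ev2 hu a b

theorem no5 (hu : Hyp u) {S : Finset C10} (hS : Ev u S) : S.card ≤ 4 := by
  by_contra hc
  obtain ⟨i, j, k, h1, h2, h3, h4, h5, h6, -, -, -, h⟩ := hu.star S 0 hS
  have hd : Disjoint S {i, j, k} := by
    simp [h4, h5, h6]
  have h3' : ({i, j, k} : Finset C10).card = 3 := Finset.card_eq_three.2 ⟨i, j, k, h1, h3, h2, rfl⟩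
  apply hu.cover S {i, j, k} (S ∪ {i, j, k})ᶜ hS (ev3 hu h)
  · apply ev_of_card_le_two hu
    rw [Finset.card_compl, Finset.card_union_of_disjoint hd, h3', Fintype.card_fin]
    omega
  · exact Finset.union_compl _

theorem cover42 (hu : Hyp u) {S : Finset C10} (hS : Ev u S) (q1 q2 q3 q4 q5 q6 : C10)
    (hc : ∀ x, x ∉ S → x = q1 ∨ x = q2 ∨ x = q3 ∨ x = q4 ∨ x = q5 ∨ x = q6) :
    ¬ (t u q1 q2 q3 = 0 ∧ t u q1 q2 q4 = 0 ∧ t u q1 q3 q4 = 0 ∧ t u q2 q3 q4 = 0) := by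
  rintro ⟨h1, h2, h3, -⟩
  apply hu.cover S _ _ hS (ev4 hu h1 h2 h3) (ev2 hu q5 q6)
  ext x
  have := hc x
  simp only [Finset.mem_union, Finset.mem_insert, Finset.mem_singleton, Finset.mem_univ]
  tauto

theorem cover33 (hu : Hyp u) {S : Finset C10} (hS : Ev u S) (q1 q2 q3 q4 q5 q6 : C10)
    (hc : ∀ x, x ∉ S → x = q1 ∨ x = q2 ∨ x = q3 ∨ x = q4 ∨ x = q5 ∨ x = q6) :
    ¬ (t u q1 q2 q3 = 0 ∧ t u q4 q5 q6 = 0) := by
  rintro ⟨h1, h2⟩
  apply hu.cover S _ _ hS (ev3 hu h1) (ev3 hu h2)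
  ext x
  have := hc x
  simp only [Finset.mem_union, Finset.mem_insert, Finset.mem_singleton, Finset.mem_univ]
  tauto

theorem t_perm (hu : Hyp u) {i j k : C10} (h : t u i j k = 0) :
    t u i j k = 0 ∧ t u i k j = 0 ∧ t u j i k = 0 ∧ t u j k i = 0 ∧ t u k i j = 0 ∧
      t u k j i = 0 := by
  have a := t_12 hu
  have b := t_23 hu
  refine ⟨h, ?_, ?_, ?_, ?_, ?_⟩
  · rw [b, h]
  · rw [a, h]
  · rw [b, a, h]
  · rw [a, b, h]
  · rw [a, b, a, h]

theorem star5 (hu : Hyp u) {S : Finset C10} (hS : Ev u S) (v q1 q2 q3 q4 q5 : C10)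
    (hc : ∀ x, x ∉ S → x = v ∨ x = q1 ∨ x = q2 ∨ x = q3 ∨ x = q4 ∨ x = q5) :
    t u q1 q2 q3 = 0 ∨ t u q1 q2 q4 = 0 ∨ t u q1 q2 q5 = 0 ∨ t u q1 q3 q4 = 0 ∨
      t u q1 q3 q5 = 0 ∨ t u q1 q4 q5 = 0 ∨ t u q2 q3 q4 = 0 ∨ t u q2 q3 q5 = 0 ∨
      t u q2 q4 q5 = 0 ∨ t u q3 q4 q5 = 0 := by
  obtain ⟨i, j, k, h1, h2, h3, h4, h5, h6, h7, h8, h9, h⟩ := hu.star S v hS
  obtain ⟨g1, g2, g3, g4, g5, g6⟩ := t_perm hu h
  have hi := (hc i h4).resolve_left h7
  have hj := (hc j h5).resolve_left h8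
  have hk := (hc k h6).resolve_left h9
  rcases hi with hi | hi | hi | hi | hi <;> rcases hj with hj | hj | hj | hj | hj <;>
    rcases hk with hk | hk | hk | hk | hk <;>
    first
      | exact absurd (hi.trans hj.symm) h1
      | exact absurd (hj.trans hk.symm) h2
      | exact absurd (hi.trans hk.symm) h3
      | (rw [hi, hj, hk] at g1 g2 g3 g4 g5 g6; simp only [g1, g2, g3, g4, g5, g6, true_or, or_true])

theorem six (hu : Hyp u) {S : Finset C10} (hS : Ev u S) (p0 p1 p2 p3 p4 p5 : C10)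
    (hc : ∀ x, x ∉ S → x = p0 ∨ x = p1 ∨ x = p2 ∨ x = p3 ∨ x = p4 ∨ x = p5) :
    t u p0 p1 p2 + t u p0 p1 p3 + t u p0 p1 p4 + t u p0 p1 p5 = 0 ∧
      ¬ (t u p0 p1 p2 = t u p0 p1 p3 ∧ t u p0 p1 p2 = t u p0 p2 p3 ∧
        t u p0 p1 p2 = t u p1 p2 p3) := by
  have H0 := cover42 hu hS p0 p1 p2 p3 p4 p5 (fun x hx => by rcases hc x hx with h | h | h | h | h | h <;> simp only [h, true_or, or_true])
  have H1 := cover42 hu hS p0 p1 p2 p4 p3 p5 (fun x hx => by rcases hc x hx with h | h | h | h | h | h <;> simp only [h, true_or, or_true])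
  have H2 := cover42 hu hS p0 p1 p2 p5 p3 p4 (fun x hx => by rcases hc x hx with h | h | h | h | h | h <;> simp only [h, true_or, or_true])
  have H3 := cover42 hu hS p0 p1 p3 p4 p2 p5 (fun x hx => by rcases hc x hx with h | h | h | h | h | h <;> simp only [h, true_or, or_true])
  have H4 := cover42 hu hS p0 p1 p3 p5 p2 p4 (fun x hx => by rcases hc x hx with h | h | h | h | h | h <;> simp only [h, true_or, or_true])
  have H5 := cover42 hu hS p0 p1 p4 p5 p2 p3 (fun x hx => by rcases hc x hx with h | h | h | h | h | h <;> simp only [h, true_or, or_true])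
  have H6 := cover42 hu hS p0 p2 p3 p4 p1 p5 (fun x hx => by rcases hc x hx with h | h | h | h | h | h <;> simp only [h, true_or, or_true])
  have H7 := cover42 hu hS p0 p2 p3 p5 p1 p4 (fun x hx => by rcases hc x hx with h | h | h | h | h | h <;> simp only [h, true_or, or_true])
  have H8 := cover42 hu hS p0 p2 p4 p5 p1 p3 (fun x hx => by rcases hc x hx with h | h | h | h | h | h <;> simp only [h, true_or, or_true])
  have H9 := cover42 hu hS p0 p3 p4 p5 p1 p2 (fun x hx => by rcases hc x hx with h | h | h | h | h | h <;> simp only [h, true_or, or_true])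
  have H10 := cover42 hu hS p1 p2 p3 p4 p0 p5 (fun x hx => by rcases hc x hx with h | h | h | h | h | h <;> simp only [h, true_or, or_true])
  have H11 := cover42 hu hS p1 p2 p3 p5 p0 p4 (fun x hx => by rcases hc x hx with h | h | h | h | h | h <;> simp only [h, true_or, or_true])
  have H12 := cover42 hu hS p1 p2 p4 p5 p0 p3 (fun x hx => by rcases hc x hx with h | h | h | h | h | h <;> simp only [h, true_or, or_true])
  have H13 := cover42 hu hS p1 p3 p4 p5 p0 p2 (fun x hx => by rcases hc x hx with h | h | h | h | h | h <;> simp only [h, true_or, or_true])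
  have H14 := cover42 hu hS p2 p3 p4 p5 p0 p1 (fun x hx => by rcases hc x hx with h | h | h | h | h | h <;> simp only [h, true_or, or_true])
  have H15 := cover33 hu hS p0 p1 p2 p3 p4 p5 (fun x hx => by rcases hc x hx with h | h | h | h | h | h <;> simp only [h, true_or, or_true])
  have H16 := cover33 hu hS p0 p1 p3 p2 p4 p5 (fun x hx => by rcases hc x hx with h | h | h | h | h | h <;> simp only [h, true_or, or_true])
  have H17 := cover33 hu hS p0 p1 p4 p2 p3 p5 (fun x hx => by rcases hc x hx with h | h | h | h | h | h <;> simp only [h, true_or, or_true])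
  have H18 := cover33 hu hS p0 p1 p5 p2 p3 p4 (fun x hx => by rcases hc x hx with h | h | h | h | h | h <;> simp only [h, true_or, or_true])
  have H19 := cover33 hu hS p0 p2 p3 p1 p4 p5 (fun x hx => by rcases hc x hx with h | h | h | h | h | h <;> simp only [h, true_or, or_true])
  have H20 := cover33 hu hS p0 p2 p4 p1 p3 p5 (fun x hx => by rcases hc x hx with h | h | h | h | h | h <;> simp only [h, true_or, or_true])
  have H21 := cover33 hu hS p0 p2 p5 p1 p3 p4 (fun x hx => by rcases hc x hx with h | h | h | h | h | h <;> simp only [h, true_or, or_true])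
  have H22 := cover33 hu hS p0 p3 p4 p1 p2 p5 (fun x hx => by rcases hc x hx with h | h | h | h | h | h <;> simp only [h, true_or, or_true])
  have H23 := cover33 hu hS p0 p3 p5 p1 p2 p4 (fun x hx => by rcases hc x hx with h | h | h | h | h | h <;> simp only [h, true_or, or_true])
  have H24 := cover33 hu hS p0 p4 p5 p1 p2 p3 (fun x hx => by rcases hc x hx with h | h | h | h | h | h <;> simp only [h, true_or, or_true])
  have H25 := star5 hu hS p0 p1 p2 p3 p4 p5 (fun x hx => by rcases hc x hx with h | h | h | h | h | h <;> simp only [h, true_or, or_true])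
  have H26 := star5 hu hS p1 p0 p2 p3 p4 p5 (fun x hx => by rcases hc x hx with h | h | h | h | h | h <;> simp only [h, true_or, or_true])
  have H27 := star5 hu hS p2 p0 p1 p3 p4 p5 (fun x hx => by rcases hc x hx with h | h | h | h | h | h <;> simp only [h, true_or, or_true])
  have H28 := star5 hu hS p3 p0 p1 p2 p4 p5 (fun x hx => by rcases hc x hx with h | h | h | h | h | h <;> simp only [h, true_or, or_true])
  have H29 := star5 hu hS p4 p0 p1 p2 p3 p5 (fun x hx => by rcases hc x hx with h | h | h | h | h | h <;> simp only [h, true_or, or_true])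
  have H30 := star5 hu hS p5 p0 p1 p2 p3 p4 (fun x hx => by rcases hc x hx with h | h | h | h | h | h <;> simp only [h, true_or, or_true])
  simp only [t_base hu p0 p1 p2 p3, t_base hu p0 p1 p2 p4, t_base hu p0 p1 p2 p5, t_base hu p0 p1 p3 p4, t_base hu p0 p1 p3 p5, t_base hu p0 p1 p4 p5, t_base hu p0 p2 p3 p4, t_base hu p0 p2 p3 p5, t_base hu p0 p2 p4 p5, t_base hu p0 p3 p4 p5] at H0 H1 H2 H3 H4 H5 H6 H7 H8 H9 H10 H11 H12 H13 H14 H15 H16 H17 H18 H19 H20 H21 H22 H23 H24 H25 H26 H27 H28 H29 H30 ⊢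
  exact six_pure _ _ _ _ _ _ _ _ _ _ H0 H1 H2 H3 H4 H5 H6 H7 H8 H9 H10 H11 H12 H13 H14 H15 H16 H17 H18 H19 H20 H21 H22 H23 H24 H25 H26 H27 H28 H29 H30

theorem pair_eq (hu : Hyp u) (a0 a1 a2 a3 e0 e1 e2 e3 f g : C10)
    (hc : ∀ x, x = a0 ∨ x = a1 ∨ x = a2 ∨ x = a3 ∨ x = e0 ∨ x = e1 ∨ x = e2 ∨ x = e3 ∨ x = f ∨ x = g)
    (h : Ev u {a0, a1, a2, a3}) (h0 : Ev u {e0, a1, a2, a3}) (h1 : Ev u {a0, e1, a2, a3})
    (h2 : Ev u {a0, a1, e2, a3}) (h3 : Ev u {a0, a1, a2, e3}) :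
    t u e0 e1 e2 = t u e0 e1 e3 := by
  have w := (six hu h e0 e1 e2 e3 f g (fun x hx => by
    simp only [Finset.mem_insert, Finset.mem_singleton, not_or] at hx
    rcases hc x with h | h | h | h | h | h | h | h | h | h <;>
      first
        | exact absurd h hx.1
        | exact absurd h hx.2.1
        | exact absurd h hx.2.2.1
        | exact absurd h hx.2.2.2
        | simp only [h, true_or, or_true])).1
  have w2 := (six hu h2 e0 e1 a2 e3 f g (fun x hx => by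
    simp only [Finset.mem_insert, Finset.mem_singleton, not_or] at hx
    rcases hc x with h | h | h | h | h | h | h | h | h | h <;>
      first
        | exact absurd h hx.1
        | exact absurd h hx.2.1
        | exact absurd h hx.2.2.1
        | exact absurd h hx.2.2.2
        | simp only [h, true_or, or_true])).1
  have w3 := (six hu h3 e0 e1 e2 a3 f g (fun x hx => by
    simp only [Finset.mem_insert, Finset.mem_singleton, not_or] at hx
    rcases hc x with h | h | h | h | h | h | h | h | h | h <;>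
      first
        | exact absurd h hx.1
        | exact absurd h hx.2.1
        | exact absurd h hx.2.2.1
        | exact absurd h hx.2.2.2
        | simp only [h, true_or, or_true])).1
  have b := t_base hu a2 e0 e1 a3
  have c0 : t u a2 e0 a3 = 0 := h0.t_eq hu (by simp) (by simp) (by simp)
  have c1 : t u a2 e1 a3 = 0 := h1.t_eq hu (by simp) (by simp) (by simp)
  have d : t u a2 e0 e1 = t u e0 e1 a2 := by rw [t_12 hu, t_23 hu]
  rw [c0, c1, d] at b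
  linear_combination w3 - w2 - b

theorem Ev.sub4 {S : Finset C10} (h : Ev u S) {a b c d : C10} (ha : a ∈ S) (hb : b ∈ S)
    (hc : c ∈ S) (hd : d ∈ S) : Ev u {a, b, c, d} := by
  obtain ⟨q, hq⟩ := h
  have hs : ∀ x ∈ ({a, b, c, d} : Finset C10), x ∈ S := by
    intro x hx
    simp only [Finset.mem_insert, Finset.mem_singleton] at hx
    rcases hx with rfl | rfl | rfl | rfl <;> assumption
  exact ⟨q, fun i hi j hj => hq i (hs i hi) j (hs j hj)⟩

theorem e_ne (hu : Hyp u) {a0 a1 a2 a3 e : C10} (n01 : a0 ≠ a1) (n02 : a0 ≠ a2) (n03 : a0 ≠ a3)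
    (n12 : a1 ≠ a2) (n13 : a1 ≠ a3) (n23 : a2 ≠ a3)
    (he : e ≠ a0 ∧ e ≠ a1 ∧ e ≠ a2 ∧ e ≠ a3)
    (h : Ev u {a0, a1, a2, a3}) (h0 : Ev u {e, a1, a2, a3}) (h1 : Ev u {a0, e, a2, a3}) :
    False := by
  have : Ev u {e, a0, a1, a2, a3} := by
    refine ⟨a2, ?_⟩
    intro i hi j hj
    simp only [Finset.mem_insert, Finset.mem_singleton] at hi hj
    rcases hi with rfl | rfl | rfl | rfl | rfl <;> rcases hj with rfl | rfl | rfl | rfl | rfl <;>
    first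
      | (refine h.t_eq hu ?_ ?_ ?_ <;> (simp; done))
      | (refine h0.t_eq hu ?_ ?_ ?_ <;> (simp; done))
      | (refine h1.t_eq hu ?_ ?_ ?_ <;> (simp; done))
  have := no5 hu this
  rw [Finset.card_insert_of_notMem (by simp [he]),
    Finset.card_insert_of_notMem (by simp [n01, n02, n03]),
    Finset.card_insert_of_notMem (by simp [n12, n13]), Finset.card_pair n23] at this
  omega

theorem exists_fg {a0 a1 a2 a3 e0 e1 e2 e3 : C10} (n01 : a0 ≠ a1) (n02 : a0 ≠ a2)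
    (n03 : a0 ≠ a3) (n12 : a1 ≠ a2) (n13 : a1 ≠ a3) (n23 : a2 ≠ a3)
    (he0 : e0 ≠ a0 ∧ e0 ≠ a1 ∧ e0 ≠ a2 ∧ e0 ≠ a3) (he1 : e1 ≠ a0 ∧ e1 ≠ a1 ∧ e1 ≠ a2 ∧ e1 ≠ a3)
    (he2 : e2 ≠ a0 ∧ e2 ≠ a1 ∧ e2 ≠ a2 ∧ e2 ≠ a3) (he3 : e3 ≠ a0 ∧ e3 ≠ a1 ∧ e3 ≠ a2 ∧ e3 ≠ a3)
    (m01 : e0 ≠ e1) (m02 : e0 ≠ e2) (m03 : e0 ≠ e3) (m12 : e1 ≠ e2) (m13 : e1 ≠ e3)
    (m23 : e2 ≠ e3) : ∃ f g : C10, ∀ x, x = a0 ∨ x = a1 ∨ x = a2 ∨ x = a3 ∨ x = e0 ∨ x = e1 ∨
      x = e2 ∨ x = e3 ∨ x = f ∨ x = g := by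
  have hcard : ({e0, e1, e2, e3, a0, a1, a2, a3} : Finset C10)ᶜ.card = 2 := by
    rw [Finset.card_compl, Fintype.card_fin,
      Finset.card_insert_of_notMem (by simp [m01, m02, m03, he0]),
      Finset.card_insert_of_notMem (by simp [m12, m13, he1]),
      Finset.card_insert_of_notMem (by simp [m23, he2]),
      Finset.card_insert_of_notMem (by simp [he3]),
      Finset.card_insert_of_notMem (by simp [n01, n02, n03]),
      Finset.card_insert_of_notMem (by simp [n12, n13]), Finset.card_pair n23]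
  obtain ⟨f, g, -, hfg⟩ := Finset.card_eq_two.1 hcard
  refine ⟨f, g, fun x => ?_⟩
  have : x ∈ ({e0, e1, e2, e3, a0, a1, a2, a3} : Finset C10)ᶜ ↔ x ∈ ({f, g} : Finset C10) := by
    rw [hfg]
  simp only [Finset.mem_compl, Finset.mem_insert, Finset.mem_singleton] at this
  by_contra hcon
  simp only [not_or] at hcon
  obtain ⟨c1, c2, c3, c4, c5, c6, c7, c8, c9, c10⟩ := hcon
  simp [c1, c2, c3, c4, c5, c6, c7, c8, c9, c10] at this

theorem final (hu : Hyp u) {a0 a1 a2 a3 e0 e1 e2 e3 : C10} (n01 : a0 ≠ a1) (n02 : a0 ≠ a2)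
    (n03 : a0 ≠ a3) (n12 : a1 ≠ a2) (n13 : a1 ≠ a3) (n23 : a2 ≠ a3)
    (he0 : e0 ≠ a0 ∧ e0 ≠ a1 ∧ e0 ≠ a2 ∧ e0 ≠ a3) (he1 : e1 ≠ a0 ∧ e1 ≠ a1 ∧ e1 ≠ a2 ∧ e1 ≠ a3)
    (he2 : e2 ≠ a0 ∧ e2 ≠ a1 ∧ e2 ≠ a2 ∧ e2 ≠ a3) (he3 : e3 ≠ a0 ∧ e3 ≠ a1 ∧ e3 ≠ a2 ∧ e3 ≠ a3)
    (h : Ev u {a0, a1, a2, a3}) (h0 : Ev u {e0, a1, a2, a3}) (h1 : Ev u {a0, e1, a2, a3})
    (h2 : Ev u {a0, a1, e2, a3}) (h3 : Ev u {a0, a1, a2, e3}) : False := by
  have m01 : e0 ≠ e1 := by
    rintro rfl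
    exact e_ne hu n01 n02 n03 n12 n13 n23 he0 h h0 h1
  have m02 : e0 ≠ e2 := by
    rintro rfl
    exact e_ne hu (a0 := a0) (a1 := a2) (a2 := a1) (a3 := a3) (e := e0)
      n02 n01 n03 n12.symm n23 n13 ⟨by simp [he0, he1, he2], by simp [he0, he1, he2], by simp [he0, he1, he2], by simp [he0, he1, he2]⟩
      (h.sub4 (by simp) (by simp) (by simp) (by simp)) (h0.sub4 (by simp) (by simp) (by simp) (by simp))
      (h2.sub4 (by simp) (by simp) (by simp) (by simp))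
  have m03 : e0 ≠ e3 := by
    rintro rfl
    exact e_ne hu (a0 := a0) (a1 := a3) (a2 := a1) (a3 := a2) (e := e0)
      n03 n01 n02 n13.symm n23.symm n12 ⟨by simp [he0, he1, he2], by simp [he0, he1, he2], by simp [he0, he1, he2], by simp [he0, he1, he2]⟩
      (h.sub4 (by simp) (by simp) (by simp) (by simp)) (h0.sub4 (by simp) (by simp) (by simp) (by simp))
      (h3.sub4 (by simp) (by simp) (by simp) (by simp))
  have m12 : e1 ≠ e2 := by
    rintro rfl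
    exact e_ne hu (a0 := a1) (a1 := a2) (a2 := a0) (a3 := a3) (e := e1)
      n12 n01.symm n13 n02.symm n23 n03 ⟨by simp [he0, he1, he2], by simp [he0, he1, he2], by simp [he0, he1, he2], by simp [he0, he1, he2]⟩
      (h.sub4 (by simp) (by simp) (by simp) (by simp)) (h1.sub4 (by simp) (by simp) (by simp) (by simp))
      (h2.sub4 (by simp) (by simp) (by simp) (by simp))
  have m13 : e1 ≠ e3 := by
    rintro rfl
    exact e_ne hu (a0 := a1) (a1 := a3) (a2 := a0) (a3 := a2) (e := e1)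
      n13 n01.symm n12 n03.symm n23.symm n02 ⟨by simp [he0, he1, he2], by simp [he0, he1, he2], by simp [he0, he1, he2], by simp [he0, he1, he2]⟩
      (h.sub4 (by simp) (by simp) (by simp) (by simp)) (h1.sub4 (by simp) (by simp) (by simp) (by simp))
      (h3.sub4 (by simp) (by simp) (by simp) (by simp))
  have m23 : e2 ≠ e3 := by
    rintro rfl
    exact e_ne hu (a0 := a2) (a1 := a3) (a2 := a0) (a3 := a1) (e := e2)
      n23 n02.symm n12.symm n03.symm n13.symm n01 ⟨by simp [he0, he1, he2], by simp [he0, he1, he2], by simp [he0, he1, he2], by simp [he0, he1, he2]⟩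
      (h.sub4 (by simp) (by simp) (by simp) (by simp)) (h2.sub4 (by simp) (by simp) (by simp) (by simp))
      (h3.sub4 (by simp) (by simp) (by simp) (by simp))
  obtain ⟨f, g, hc⟩ := exists_fg n01 n02 n03 n12 n13 n23 he0 he1 he2 he3 m01 m02 m03 m12 m13 m23
  have q1 := pair_eq hu a0 a1 a2 a3 e0 e1 e2 e3 f g hc h h0 h1 h2 h3
  have q2 := pair_eq hu a0 a2 a1 a3 e0 e2 e1 e3 f g (fun x => by rcases hc x with h | h | h | h | h | h | h | h | h | h <;> simp only [h, true_or, or_true])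
    (h.sub4 (by simp) (by simp) (by simp) (by simp)) (h0.sub4 (by simp) (by simp) (by simp) (by simp))
    (h2.sub4 (by simp) (by simp) (by simp) (by simp)) (h1.sub4 (by simp) (by simp) (by simp) (by simp))
    (h3.sub4 (by simp) (by simp) (by simp) (by simp))
  have q3 := pair_eq hu a1 a2 a0 a3 e1 e2 e0 e3 f g (fun x => by rcases hc x with h | h | h | h | h | h | h | h | h | h <;> simp only [h, true_or, or_true])
    (h.sub4 (by simp) (by simp) (by simp) (by simp)) (h1.sub4 (by simp) (by simp) (by simp) (by simp))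
    (h2.sub4 (by simp) (by simp) (by simp) (by simp)) (h0.sub4 (by simp) (by simp) (by simp) (by simp))
    (h3.sub4 (by simp) (by simp) (by simp) (by simp))
  apply (six hu h e0 e1 e2 e3 f g (fun x hx => by
    simp only [Finset.mem_insert, Finset.mem_singleton, not_or] at hx
    rcases hc x with h | h | h | h | h | h | h | h | h | h <;>
      first
        | exact absurd h hx.1
        | exact absurd h hx.2.1
        | exact absurd h hx.2.2.1
        | exact absurd h hx.2.2.2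
        | simp only [h, true_or, or_true])).2
  refine ⟨q1, ?_, ?_⟩
  · rw [← q2, t_23 hu]
  · rw [← q3, t_23 hu e1 e0 e2, t_12 hu]

end Vale.Agent.P052
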